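import Vale.Agent.P286EO.Cov

/-!
# Descent along open covers
-/

set_option linter.all false

namespace Vale.Agent.P286EO

open CategoryTheory
open Vale.Agent.P286.St Vale.Agent.P286.H847 Vale.Agent.P286.H353 Vale.Agent.P286.H652
open Vale.Agent.P286EG Vale.Agent.P286EH
open Vale.Agent.P286ET (IsAway Ix)
open Vale.Agent.P286ER (Good)
open Vale.Agent.P286E (WD EQV dprod dfst dsnd dpair zpair zig_pair)

noncomputable section

universe u v u₁ v₁

variable {S T : TSite}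

theorem exact_sub (F : GTD S) (X : S.C) (h : Subsingleton (S.R X)) : (F.F X).Exact :=
  exact_of_zero fun x => by
    rw [← fn_one F X x, Subsingleton.elim (1 : S.R X) 0, fn_zero]

theorem exact_hp {A B C : GD} (u : GD.Hom A C) (v : GD.Hom B C) (hA : A.Exact) (hB : B.Exact)
    (hC : C.Exact) : (HP u v).Exact := exact_of_qis (qis_hpA u (qis_of_exact v hB hC)) hA

theorem Kill.qis {U : T.C → Prop} (h : Kill T U) {F G : GTD T} (u : GHom F G) (hF : GC F)
    (hG : GC G) (q : ∀ X, U X → GD.Qis (u.f X)) (X : T.C) : GD.Qis (u.f X) :=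
  (GD.qis_iff_exact_cone _).2 (h (gcone u) (gc_cone u hF hG)
    (fun X hX => (GD.qis_iff_exact_cone _).1 (q X hX)) X)

theorem comp_qis {C : DGC.{u, v}} {Φ Ψ Θ : DGF C (gtc T)} (β : DN Ψ Θ) (α : DN Φ Ψ) (K : C.Obj)
    (X : T.C) (h : GD.Qis ((β.app K).f X)) (h' : GD.Qis ((α.app K).f X)) :
    GD.Qis (((β.comp α).app K).f X) := h.comp h'

theorem hpR_qis {C : DGC.{u, v}} {Φ Ψ Θ : DGF C (gtc T)} (α : DN Φ Θ) (β : DN Ψ Θ) (E : EtF T S)
    (K : C.Obj) (X : S.C) : GD.Qis (((hpR α β E).app K).f X) := GD.Qis.id _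

variable {a b c : ∀ X : T.C, T.R X}

namespace Env

variable (e : Env T) (ha : IsFn T a) (hb : IsFn T b) (hc : IsFn T c)

/-- The restriction to the charts. -/
def P (a b : ∀ X : T.C, T.R X) : DGF (gtc T) (gtc (GS T a b)) := (e.J a b).D

/-- The direct image. -/
def Q : DGF (gtc (GS T a b)) (gtc T) := hpD (e.aL ha hb .a).N (e.aL ha hb .b).N

/-- The middle term. -/
def Md : DGF (gtc (GS T a b)) (gtc (GS T a b)) := hpD (e.aM ha hb .a).N (e.aM ha hb .b).N

theorem gcP (F : (gtc T).Obj) (h : GP T F) : GP _ ((e.P a b).obj F) :=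
  (e.J a b).et.push_gc ((e.J a b).et.isPO_of_bij fun _ => Function.bijective_id) F h

theorem gcL (i : Ix) (F : (gtc (GS T a b)).Obj) (h : GP _ F) : GC (go (e.Li ha hb i).D F) :=
  (e.Li ha hb i).et.push_gc (fun _ _ φ => e.po (isFn_th ha hb i) φ) F h

theorem gcQ (F : (gtc (GS T a b)).Obj) (h : GP _ F) : GP T ((e.Q ha hb).obj F) :=
  gc_hp _ _ F (e.gcL ha hb .a F h) (e.gcL ha hb .b F h) (e.gcL ha hb .n F h)

theorem prP : Pres (gqis T) (gqis (GS T a b)) (e.P a b).z0 := (e.J a b).et.push_qis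

theorem prQ : Pres (gqis (GS T a b)) (gqis T) (e.Q ha hb).z0 :=
  hp_pres _ _ (e.Li ha hb .a).et.push_qis (e.Li ha hb .b).et.push_qis (e.Li ha hb .n).et.push_qis

theorem tr_sq (F : GTD T) (X : T.C) (x : (F.F X).V) :
    (F.tr (e.rn a b .a X)).f ((F.tr (e.ar (th a b .a) X)).f x) =
      (F.tr (e.rn a b .b X)).f ((F.tr (e.ar (th a b .b) X)).f x) :=
  (Sim.of_eq ((e.ar_rs X (e.un .a X)).trans (e.ar_rs X (e.un .b X)).symm)).sq F x

/-- The map to the chart. -/
def uI (i : Ix) : DN (DGF.id (gtc T)) ((e.P a b).comp (e.Li ha hb i).D) :=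
  (cmpN' _ _).comp (e.uT ha hb i).N

/-- The unit. -/
def unit : DN (DGF.id (gtc T)) ((e.P a b).comp (e.Q ha hb)) :=
  hpN (α := (e.aL ha hb .a).N.left (e.P a b)) (β := (e.aL ha hb .b).N.left (e.P a b))
    (e.uI ha hb .a) (e.uI ha hb .b) fun F X x => e.tr_sq F X x

theorem bij_rn_b (X : T.C) (h : IsUnit (a X)) : Function.Bijective (T.f (e.rn a b .b X)) :=
  e.bij_rs X _ (by
    change IsUnit (T.f _ (a X * b X))
    rw [map_mul]
    exact (h.map _).mul (e.L.away X (b X)).unit)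

theorem bij_rn_a (X : T.C) (h : IsUnit (b X)) : Function.Bijective (T.f (e.rn a b .a X)) :=
  e.bij_rs X _ (by
    change IsUnit (T.f _ (a X * b X))
    rw [map_mul]
    exact (e.L.away X (a X)).unit.mul (h.map _))

theorem unit_qis (F : GTD T) (h : GC F) (X : T.C) (hX : IsUnit (a X) ∨ IsUnit (b X)) :
    GD.Qis (((e.unit ha hb).app F).f X) := by
  rcases hX with hX | hX
  · exact qis_hpL_l (e.tr_sq F X) (h.qis_tr _ (e.bij_ar (θ := th a b .a) X hX))
      (h.qis_tr _ (e.bij_rn_b X hX))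
  · exact qis_hpL_r (e.tr_sq F X) (h.qis_tr _ (e.bij_ar (θ := th a b .b) X hX))
      (h.qis_tr _ (e.bij_rn_a X hX))

theorem tr_sq' (F : GTD (GS T a b)) (X : (GS T a b).C) (x : (F.F X).V) :
    (F.tr ((e.aM ha hb .a).τ X)).f ((F.tr ((e.uM ha hb .a).τ X)).f x) =
      (F.tr ((e.aM ha hb .b).τ X)).f ((F.tr ((e.uM ha hb .b).τ X)).f x) :=
  (Sim.of_eq (S := GS T a b) (GM.ext
    ((e.ar_rs (GO.X X) (e.un .a _)).trans (e.ar_rs (GO.X X) (e.un .b _)).symm))).sq F x

/-- The map to the middle term. -/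
def mid : DN (DGF.id (gtc (GS T a b))) (e.Md ha hb) :=
  hpN (e.uM ha hb .a).N (e.uM ha hb .b).N fun F X x => e.tr_sq' ha hb F X x

theorem mid_qis (F : GTD (GS T a b)) (h : GC F) (X : (GS T a b).C) :
    GD.Qis (((e.mid ha hb).app F).f X) := by
  rcases th_or (GO.h X) with hX | hX
  · exact qis_hpL_l (e.tr_sq' ha hb F X)
      (h.qis_tr ((e.uM ha hb .a).τ X) (e.bij_ar (θ := th a b .a) _ hX))
      (h.qis_tr ((e.aM ha hb .b).τ X) (e.bij_rn_b _ hX))
  · exact qis_hpL_r (e.tr_sq' ha hb F X)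
      (h.qis_tr ((e.uM ha hb .b).τ X) (e.bij_ar (θ := th a b .b) _ hX))
      (h.qis_tr ((e.aM ha hb .a).τ X) (e.bij_rn_a _ hX))

/-- The comparison map. -/
def cI (i : Ix) : DN ((e.Li ha hb i).D.comp (e.J a b).D) (e.Mi ha hb i).D :=
  (e.cM ha hb i).N.comp (cmpN _ _)

theorem tr_sq'' (i : Ix) (F : GTD (GS T a b)) (X : (GS T a b).C)
    (x : (F.F (e.oL ha hb i (GO.X X))).V) :
    (F.tr ((e.aM ha hb i).τ X)).f ((F.tr ((e.cM ha hb i).τ X)).f x) =
      (F.tr ((e.cM ha hb .n).τ X)).f ((F.tr ((e.aL ha hb i).τ (GO.X X))).f x) :=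
  (Sim.of_eq (S := GS T a b) (GM.ext
    ((Category.id_comp _).trans (Category.comp_id _).symm))).sq F x

/-- The map to the middle term. -/
def mid0 : DN (hpD ((e.aL ha hb .a).N.right (e.J a b).et) ((e.aL ha hb .b).N.right (e.J a b).et))
    (e.Md ha hb) :=
  hpM (e.cI ha hb .a) (e.cI ha hb .b) (e.cI ha hb .n) (fun F X x => e.tr_sq'' ha hb .a F X x)
    fun F X x => e.tr_sq'' ha hb .b F X x

/-- The comparison map. -/
def hr : DN ((e.Q ha hb).comp (e.P a b))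
    (hpD ((e.aL ha hb .a).N.right (e.J a b).et) ((e.aL ha hb .b).N.right (e.J a b).et)) :=
  hpR (e.aL ha hb .a).N (e.aL ha hb .b).N (e.J a b).et

theorem hr_qis (F : GTD (GS T a b)) (X : (GS T a b).C) : GD.Qis (((e.hr ha hb).app F).f X) :=
  hpR_qis (e.aL ha hb .a).N (e.aL ha hb .b).N (e.J a b).et F X

/-- The map to the middle term. -/
def mid' : DN ((e.Q ha hb).comp (e.P a b)) (e.Md ha hb) := (e.mid0 ha hb).comp (e.hr ha hb)

theorem cI_qis (i : Ix) (F : GTD (GS T a b)) (h : GC F) (X : (GS T a b).C) :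
    GD.Qis (((e.cI ha hb i).app F).f X) := h.qis_tr ((e.cM ha hb i).τ X) (e.bij_id _)

theorem mid0_qis (F : GTD (GS T a b)) (h : GC F) (X : (GS T a b).C) :
    GD.Qis (((e.mid0 ha hb).app F).f X) :=
  qis_hpM (a := e.cI ha hb .a) (b := e.cI ha hb .b) (d := e.cI ha hb .n) _ _ F X
    (e.cI_qis ha hb .a F h X) (e.cI_qis ha hb .b F h X) (e.cI_qis ha hb .n F h X)

theorem mid'_qis (F : GTD (GS T a b)) (h : GC F) (X : (GS T a b).C) :
    GD.Qis (((e.mid' ha hb).app F).f X) :=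
  comp_qis (e.mid0 ha hb) (e.hr ha hb) F X (e.mid0_qis ha hb F h X) (e.hr_qis ha hb F X)

theorem gcM (F : (gtc (GS T a b)).Obj) (h : GP _ F) : GP _ ((e.Md ha hb).obj F) :=
  (e.mid ha hb).gc F h (e.mid_qis ha hb F h)

theorem co {C : DGC.{u, v}} (H : DGF C (gtc (GS T a b))) (hH : ∀ K, GP _ (H.obj K)) :
    Zig (gcq (GS T a b)) (glift (H.comp ((e.Q ha hb).comp (e.P a b)))
      fun K => e.gcP _ (e.gcQ ha hb _ (hH K))).z0 (glift H hH).z0 :=
  (((e.mid' ha hb).left H).natW _ (fun K => e.gcM ha hb _ (hH K))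
    fun K => e.mid'_qis ha hb _ (hH K)).zig.trans
  (((e.mid ha hb).left H).natW hH (fun K => e.gcM ha hb _ (hH K))
    fun K => e.mid_qis ha hb _ (hH K)).zig.symm

/-! ### The third chart -/

/-- The restriction to the chart. -/
def Po (c : ∀ X : T.C, T.R X) : DGF (gtc T) (gtc (Opn T c)) := (e.Jo c).D

/-- The direct image. -/
def Qo : DGF (gtc (Opn T c)) (gtc T) := (e.Lo hc).D

theorem gcPo (F : (gtc T).Obj) (h : GP T F) : GP _ ((e.Po c).obj F) :=
  (e.Jo c).et.push_gc ((e.Jo c).et.isPO_of_bij fun _ => Function.bijective_id) F h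

theorem gcQo (F : (gtc (Opn T c)).Obj) (h : GP _ F) : GP T ((e.Qo hc).obj F) :=
  (e.Lo hc).et.push_gc (fun _ _ φ => e.po hc φ) F h

theorem prPo : Pres (gqis T) (gqis (Opn T c)) (e.Po c).z0 := (e.Jo c).et.push_qis

theorem prQo : Pres (gqis (Opn T c)) (gqis T) (e.Qo hc).z0 := (e.Lo hc).et.push_qis

/-- The unit. -/
def unito : DN (DGF.id (gtc T)) ((e.Po c).comp (e.Qo hc)) := (cmpN' _ _).comp (e.uo hc).N

theorem unito_qis (F : GTD T) (h : GC F) (X : T.C) (hX : IsUnit (c X)) :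
    GD.Qis (((e.unito hc).app F).f X) := h.qis_tr (e.ar c X) (e.bij_ar X hX)

/-- The inverse of the counit. -/
def counito : DN (DGF.id (gtc (Opn T c))) ((e.Qo hc).comp (e.Po c)) :=
  (cmpN' _ _).comp (e.uo' hc).N

theorem counito_qis (F : GTD (Opn T c)) (h : GC F) (X : (Opn T c).C) :
    GD.Qis (((e.counito hc).app F).f X) := h.qis_tr ((e.uo' hc).τ X) (e.bij_ar _ (SO.h X))

variable (hd : ∀ X, IsUnit (a X) ∨ IsUnit (b X) → IsUnit (c X) → Subsingleton (T.R X))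

include ha hb hd in
theorem Qo_exact (F : GTD (Opn T c)) (X : T.C) (hX : IsUnit (a X) ∨ IsUnit (b X)) :
    ((go (e.Qo hc) F).F X).Exact :=
  exact_sub F ((e.Lo hc).ob X) (hd (e.lo c X)
    (hX.imp (ha.up (e.ar c X)) (hb.up (e.ar c X))) (e.lo_unit hc X))

include hc hd in
theorem L_exact (i : Ix) (F : GTD (GS T a b)) (X : T.C) (hX : IsUnit (c X)) :
    (F.F (e.oL ha hb i X)).Exact :=
  exact_sub F (e.oL ha hb i X) (hd (e.lo (th a b i) X) (th_or (e.lo_unit (isFn_th ha hb i) X))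
    (hc.up (e.ar _ X) hX))

include hc hd in
theorem Q_exact (F : GTD (GS T a b)) (X : T.C) (hX : IsUnit (c X)) :
    ((go (e.Q ha hb) F).F X).Exact :=
  exact_hp _ _ (e.L_exact ha hb hc hd .a F X hX) (e.L_exact ha hb hc hd .b F X hX)
    (e.L_exact ha hb hc hd .n F X hX)

end Env

section Two

variable {C : DGC.{u, v}} {A B Φ : DGF C (gtc T)}

/-- Two functors. -/
def two (A B : DGF C (gtc T)) : Bool → DGF C (gtc T)
  | true => A
  | false => B

/-- The product. -/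
def pr2 (A B : DGF C (gtc T)) : DGF C (gtc T) := prD (two A B)

theorem gc_pr2 (K : C.Obj) (hA : GP T (A.obj K)) (hB : GP T (B.obj K)) : GP T ((pr2 A B).obj K) :=
  gc_pr (F := fun l => go (two A B l) K) fun l => match l with
    | true => hA
    | false => hB

theorem pr2_pres {W : MorphismProperty (Z0 C)} (hA : Pres W (gqis T) A.z0)
    (hB : Pres W (gqis T) B.z0) : Pres W (gqis T) (pr2 A B).z0 :=
  pr_pres (two A B) fun l => match l with
    | true => hA
    | false => hB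

/-- The first projection. -/
def p1 (A B : DGF C (gtc T)) : DN (pr2 A B) A := prP (two A B) true

/-- The second projection. -/
def p2 (A B : DGF C (gtc T)) : DN (pr2 A B) B := prP (two A B) false

theorem p1_qis (K : C.Obj) (X : T.C) (h : ((go B K).F X).Exact) :
    GD.Qis (((p1 A B).app K).f X) :=
  qis_proj (fun l => (go (two A B l) K).F X) true (fun l => match l with
    | true => fun h => absurd rfl h
    | false => fun _ => h) _ fun _ => rfl

theorem p2_qis (K : C.Obj) (X : T.C) (h : ((go A K).F X).Exact) :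
    GD.Qis (((p2 A B).app K).f X) :=
  qis_proj (fun l => (go (two A B l) K).F X) false (fun l => match l with
    | true => fun _ => h
    | false => fun h => absurd rfl h) _ fun _ => rfl

variable {D : DGC.{u₁, v₁}} {Ψ : DGF D (gtc T)} (H : DGF D C)

/-- The map to the product. -/
def l2 (α : DN Ψ (H.comp A)) (β : DN Ψ (H.comp B)) : DN Ψ (H.comp (pr2 A B)) :=
  prL (Φ := fun l => H.comp (two A B l)) fun l => match l with
    | true => α
    | false => β

theorem l2_qis1 (α : DN Ψ (H.comp A)) (β : DN Ψ (H.comp B)) (K : D.Obj) (X : T.C)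
    (h : ((go B (H.obj K)).F X).Exact) (h' : GD.Qis ((α.app K).f X)) :
    GD.Qis (((l2 H α β).app K).f X) :=
  (p1_qis (H.obj K) X h).of_comp_left (qis_congr h' fun _ => rfl)

theorem l2_qis2 (α : DN Ψ (H.comp A)) (β : DN Ψ (H.comp B)) (K : D.Obj) (X : T.C)
    (h : ((go A (H.obj K)).F X).Exact) (h' : GD.Qis ((β.app K).f X)) :
    GD.Qis (((l2 H α β).app K).f X) :=
  (p2_qis (H.obj K) X h).of_comp_left (qis_congr h' fun _ => rfl)

end Two

section Crit

variable {G O : TSite} (P : DGF (gtc T) (gtc G)) (Q : DGF (gtc G) (gtc T))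
  (P' : DGF (gtc T) (gtc O)) (Q' : DGF (gtc O) (gtc T))
  (cP : ∀ F, GP T F → GP G (P.obj F)) (cQ : ∀ F, GP G F → GP T (Q.obj F))
  (cP' : ∀ F, GP T F → GP O (P'.obj F)) (cQ' : ∀ F, GP O F → GP T (Q'.obj F))

/-- The first component. -/
abbrev H1 (G O : TSite) : DGF (dprod (gcc G) (gcc O)) (gtc G) := (dfst _ _).comp (ginc G)

/-- The second component. -/
abbrev H2 (G O : TSite) : DGF (dprod (gcc G) (gcc O)) (gtc O) := (dsnd _ _).comp (ginc O)

/-- The direct image. -/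
def QQ : DGF (dprod (gcc G) (gcc O)) (gtc T) := pr2 ((H1 G O).comp Q) ((H2 G O).comp Q')

include cQ cQ' in
theorem gcQQ (K : (dprod (gcc G) (gcc O)).Obj) : GP T ((QQ Q Q').obj K) :=
  gc_pr2 K (cQ _ (gc_obj K.1)) (cQ' _ (gc_obj K.2))

/-- The restriction. -/
def PP : DGF (gcc T) (dprod (gcc G) (gcc O)) := dpair (gres P cP) (gres P' cP')

theorem eqv3 (pP : Pres (gqis T) (gqis G) P.z0) (pQ : Pres (gqis G) (gqis T) Q.z0)
    (pP' : Pres (gqis T) (gqis O) P'.z0) (pQ' : Pres (gqis O) (gqis T) Q'.z0)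
    (α : DN (DGF.id (gtc T)) (P.comp Q)) (β : DN (DGF.id (gtc T)) (P'.comp Q'))
    {U V : T.C → Prop} (hK : Kill T fun X => U X ∨ V X)
    (hα : ∀ F, GC F → ∀ X, U X → GD.Qis ((α.app F).f X))
    (hβ : ∀ F, GC F → ∀ X, V X → GD.Qis ((β.app F).f X))
    (eU : ∀ F X, U X → ((go Q' F).F X).Exact) (eV : ∀ F X, V X → ((go Q F).F X).Exact)
    (h1 : Zig (gcq G) (glift ((QQ Q Q').comp P) fun K => cP _ (gcQQ Q Q' cQ cQ' K)).z0
      (glift (H1 G O) fun K => gc_obj K.1).z0)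
    (h2 : Zig (gcq O) (glift ((QQ Q Q').comp P') fun K => cP' _ (gcQQ Q Q' cQ cQ' K)).z0
      (glift (H2 G O) fun K => gc_obj K.2).z0) :
    EQV (gc T) ((gc G).prod (gc O)) := by
  refine ⟨PP P P' cP cP', glift (QQ Q Q') (gcQQ Q Q' cQ cQ'),
    fun K L a ha => ⟨pP ((ginc T).z0.map a) ha, pP' ((ginc T).z0.map a) ha⟩, fun K L a ha => ?_,
    ?_, zig_pair (P := gc G) (Q := gc O) h1 h2⟩
  · exact pr2_pres (W := ((gc G).prod (gc O)).W) (A := (H1 G O).comp Q) (B := (H2 G O).comp Q')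
      (fun _ _ a ha => pQ ((H1 G O).z0.map a) ha.1) (fun _ _ a ha => pQ' ((H2 G O).z0.map a) ha.2)
      a ha
  · let η : DN (ginc T) ((PP P P' cP cP').comp (QQ Q Q')) :=
      l2 (A := (H1 G O).comp Q) (B := (H2 G O).comp Q') (PP P P' cP cP') (α.left (ginc T))
        (β.left (ginc T))
    refine (η.natW gc_obj (fun F => gcQQ Q Q' cQ cQ' _) fun F => ?_).zig.symm
    refine hK.qis _ (gc_obj F) (gcQQ Q Q' cQ cQ' _) fun X hX => ?_
    rcases hX with hX | hX
    · exact l2_qis1 _ _ _ F X (eU _ X hX) (hα _ (gc_obj F) X hX)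
    · exact l2_qis2 _ _ _ F X (eV _ X hX) (hβ _ (gc_obj F) X hX)

end Crit

theorem open2 : OPEN2 := by
  rintro T a b g cen ⟨L⟩ ha hb hK
  let e : Env T := ⟨g, cen, L⟩
  exact eqv_zig (e.P a b) (e.Q ha hb) e.gcP (e.gcQ ha hb) e.prP (e.prQ ha hb)
    (zig_gc _ _ _ _ ⟨(e.unit ha hb).app, (e.unit ha hb).nat 0⟩ fun F hF =>
      hK.qis _ hF (e.gcQ ha hb _ (e.gcP F hF)) (e.unit_qis ha hb F hF))
    (e.co ha hb (ginc _) gc_obj)

theorem open3 : OPEN3 := by
  rintro T a b c g cen ⟨L⟩ ha hb hc hd hK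
  let e : Env T := ⟨g, cen, L⟩
  refine ((st_gc T).trans ?_).trans ((st_gc _).prod (st_gc _)).symm
  refine eqv3 (e.P a b) (e.Q ha hb) (e.Po c) (e.Qo hc) e.gcP (e.gcQ ha hb) e.gcPo (e.gcQo hc)
    e.prP (e.prQ ha hb) e.prPo (e.prQo hc) (e.unit ha hb) (e.unito hc) hK (e.unit_qis ha hb)
    (e.unito_qis hc) (e.Qo_exact ha hb hc hd) (e.Q_exact ha hb hc hd) ?_ ?_
  · refine Zig.trans (NatW.zig (DN.natW ((p1 ((H1 (GS T a b) (Opn T c)).comp (e.Q ha hb))
      ((H2 (GS T a b) (Opn T c)).comp (e.Qo hc))).right (e.J a b).et) _ _ fun K X => ?_))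
      (e.co ha hb (H1 _ _) fun K => gc_obj K.1)
    exact p1_qis K (GO.X X) (e.Qo_exact ha hb hc hd _ _ (th_or (GO.h X)))
  · refine Zig.trans (NatW.zig (DN.natW ((p2 ((H1 (GS T a b) (Opn T c)).comp (e.Q ha hb))
      ((H2 (GS T a b) (Opn T c)).comp (e.Qo hc))).right (e.Jo c).et) _
      (fun K => e.gcPo _ (e.gcQo hc _ (gc_obj K.2))) fun K X => ?_))
      (NatW.zig (DN.natW ((e.counito hc).left (H2 (GS T a b) (Opn T c))) _ _ fun K =>
        e.counito_qis hc _ (gc_obj K.2))).symm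
    exact p2_qis K (SO.X X) (e.Q_exact ha hb hc hd _ _ (SO.h X))

end

end Vale.Agent.P286EO
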