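import Vale.Agent.P286E.Eqv
import Vale.Agent.P286EG.Cart
import Vale.Agent.P286ER.IF
import Vale.Agent.P286ET.Defs

/-!
# Open covers of a test category
-/

set_option linter.all false

namespace Vale.Agent.P286EO

open CategoryTheory
open Vale.Agent.P286.St Vale.Agent.P286.H847 Vale.Agent.P286.H353
open Vale.Agent.P286ET (IsAway Ix)
open Vale.Agent.P286E (WD EQV)
open Vale.Agent.P286EG (GC)
open Vale.Agent.P286ER (Good Bad)

noncomputable section

/-- The principal open parts `X[1/a]` of the test objects. -/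
structure LocS (T : TSite) where
  ob : ∀ X : T.C, T.R X → T.C
  ar : ∀ (X : T.C) (a : T.R X), X ⟶ ob X a
  away : ∀ (X : T.C) (a : T.R X), IsAway (T.f (ar X a)) a
  dl_ar : ∀ (X : T.C) (a : T.R X), T.dl (ar X a) = 1
  lift : ∀ {X Y : T.C} (φ : X ⟶ Y) (a : T.R X), IsUnit (T.f φ a) →
    ∃! ψ : ob X a ⟶ Y, ar X a ≫ ψ = φ

/-- A section of a line bundle: a family of functions, compatible up to units. -/
def IsFn (T : TSite) (θ : ∀ X : T.C, T.R X) : Prop :=
  ∀ (X Y : T.C) (φ : X ⟶ Y), ∃ u : (T.R Y)ˣ, T.f φ (θ X) = u * θ Y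

/-- The test objects with the property `U`. -/
structure SO (T : TSite) (U : T.C → Prop) : Type 1 where
  X : T.C
  h : U X

/-- The full subcategory. -/
def subCat (T : TSite) (U : T.C → Prop) : Category.{0} (SO T U) where
  Hom P Q := P.X ⟶ Q.X
  id P := 𝟙 P.X
  comp φ ψ := φ ≫ ψ
  id_comp := Category.id_comp
  comp_id := Category.comp_id
  assoc := Category.assoc

/-- The test category of the objects with the property `U`. -/
def Sub (T : TSite) (U : T.C → Prop) : TSite where
  C := SO T U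
  cat := subCat T U
  A P := T.A P.X
  f {P Q} φ := T.f (X := P.X) (Y := Q.X) φ
  dl {P Q} φ := T.dl (X := P.X) (Y := Q.X) φ
  cen P := T.cen P.X
  s := T.s

/-- The open part where `θ` is invertible. -/
def Opn (T : TSite) (θ : ∀ X : T.C, T.R X) : TSite := Sub T fun X => IsUnit (θ X)

/-- The equations of two charts and of their intersection. -/
def th {T : TSite} (a b : ∀ X : T.C, T.R X) : Ix → ∀ X : T.C, T.R X
  | .a => a
  | .b => b
  | .n => fun X => a X * b X

/-- A chart and a test object of this chart. -/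
structure GO {T : TSite} (a b : ∀ X : T.C, T.R X) : Type 1 where
  i : Ix
  X : T.C
  h : IsUnit (th a b i X)

/-- The morphisms. -/
@[ext]
structure GM {T : TSite} {a b : ∀ X : T.C, T.R X} (P Q : GO a b) : Type where
  le : P.i ≤ Q.i
  φ : P.X ⟶ Q.X

/-- The category of the test objects of the charts. -/
def gCat {T : TSite} (a b : ∀ X : T.C, T.R X) : Category.{0} (GO a b) where
  Hom := GM
  id P := ⟨le_rfl, 𝟙 P.X⟩
  comp u v := ⟨u.le.trans v.le, u.φ ≫ v.φ⟩
  id_comp u := GM.ext (Category.id_comp u.φ)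
  comp_id u := GM.ext (Category.comp_id u.φ)
  assoc u v w := GM.ext (Category.assoc u.φ v.φ w.φ)

/-- The diagram of the two charts `a`, `b` invertible and of their intersection. -/
def GS (T : TSite) (a b : ∀ X : T.C, T.R X) : TSite where
  C := GO a b
  cat := gCat a b
  A P := T.A P.X
  f u := T.f (GM.φ u)
  dl u := T.dl (GM.φ u)
  cen _ := ∅
  s := T.s

/-- There is no cartesian family supported on the complement of `U`. -/
def Kill (T : TSite) (U : T.C → Prop) : Prop :=
  ∀ F : GTD T, GC F → (∀ X, U X → (F.F X).Exact) → ∀ X, (F.F X).Exact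

theorem Kill.mono {T : TSite} {U V : T.C → Prop} (h : Kill T U) (e : ∀ X, U X → V X) :
    Kill T V := fun F hF hV => h F hF fun X hX => hV X (e X hX)

/-- The vanishing along a bad closed locus. -/
def KILLC : Prop := ∀ (T : TSite) (ι : Type) (θ : ι → ∀ X : T.C, T.R X), Good T →
  Nonempty (LocS T) → (∀ i, IsFn T (θ i)) →
  (∀ m : ℤ, m ≠ 0 → ∀ k : ℤ, (k : ℂ) + T.s * m ≠ 0) →
  (∀ (X : T.C) (p : Ideal (T.R X)), p.IsPrime → (∀ i, θ i X ∈ p) → Bad T X p) →
  Kill T fun X => ∃ i, IsUnit (θ i X)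

/-- Two charts. -/
def OPEN2 : Prop := ∀ (T : TSite) (a b : ∀ X : T.C, T.R X), Good T → (∀ X, T.cen X = ∅) →
  Nonempty (LocS T) → IsFn T a → IsFn T b → Kill T (fun X => IsUnit (a X) ∨ IsUnit (b X)) →
  EQV (WD.st T) (WD.st (GS T a b))

/-- Two charts, and a third chart disjoint from them. -/
def OPEN3 : Prop := ∀ (T : TSite) (a b c : ∀ X : T.C, T.R X), Good T → (∀ X, T.cen X = ∅) →
  Nonempty (LocS T) → IsFn T a → IsFn T b → IsFn T c →
  (∀ X, IsUnit (a X) ∨ IsUnit (b X) → IsUnit (c X) → Subsingleton (T.R X)) →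
  Kill T (fun X => (IsUnit (a X) ∨ IsUnit (b X)) ∨ IsUnit (c X)) →
  EQV (WD.st T) ((WD.st (GS T a b)).prod (WD.st (Opn T c)))

end

end Vale.Agent.P286EO
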