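import Vale.Agent.P286EO.Loc

/-!
# The functors defined by a cover
-/

set_option linter.all false

namespace Vale.Agent.P286EO

open CategoryTheory
open Vale.Agent.P286.St Vale.Agent.P286.H847 Vale.Agent.P286.H353 Vale.Agent.P286.H652
open Vale.Agent.P286EG Vale.Agent.P286EH
open Vale.Agent.P286ET (IsAway Ix)
open Vale.Agent.P286ER (Good)

noncomputable section

variable {T : TSite}

/-- The data. -/
structure Env (T : TSite) where
  g : Good T
  cen : ∀ X, T.cen X = ∅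
  L : LocS T

namespace Env

variable (e : Env T)

include e in
theorem fc {X Y Z : T.C} (φ : X ⟶ Y) (ψ : Y ⟶ Z) (a : T.R X) :
    T.f (φ ≫ ψ) a = T.f ψ (T.f φ a) := by
  rw [e.g.f_comp]
  rfl

include e in
theorem fi (X : T.C) (a : T.R X) : T.f (𝟙 X) a = a := by
  rw [e.g.f_id]
  rfl

/-- The factorisation. -/
def lf {X Y : T.C} (φ : X ⟶ Y) (a : T.R X) (h : IsUnit (T.f φ a)) : e.L.ob X a ⟶ Y :=
  (e.L.lift φ a h).exists.choose

theorem ar_lf {X Y : T.C} (φ : X ⟶ Y) (a : T.R X) (h : IsUnit (T.f φ a)) :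
    e.L.ar X a ≫ e.lf φ a h = φ := (e.L.lift φ a h).exists.choose_spec

theorem cancel {X Y : T.C} {a : T.R X} {ψ ψ' : e.L.ob X a ⟶ Y}
    (h : e.L.ar X a ≫ ψ = e.L.ar X a ≫ ψ') : ψ = ψ' :=
  (e.L.lift (e.L.ar X a ≫ ψ') a (by
    rw [e.fc]
    exact (e.L.away X a).unit.map _)).unique h rfl

theorem dl_lf {X Y : T.C} (φ : X ⟶ Y) (a : T.R X) (h : IsUnit (T.f φ a)) :
    T.dl (e.lf φ a h) = T.dl φ := by
  have h1 := e.g.dl_comp (e.L.ar X a) (e.lf φ a h)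
  rw [e.ar_lf, e.L.dl_ar, map_one, mul_one] at h1
  exact h1.symm

theorem f_lf {X Y : T.C} (φ : X ⟶ Y) (a : T.R X) (h : IsUnit (T.f φ a)) (x : T.R X) :
    T.f (e.lf φ a h) (T.f (e.L.ar X a) x) = T.f φ x := by
  rw [← e.fc, e.ar_lf]

include e in
theorem dl_id (X : T.C) : T.dl (𝟙 X) = 1 := by
  have h := e.g.dl_comp (𝟙 X) (𝟙 X)
  rw [Category.id_comp, e.fi] at h
  exact ((e.g.unit (𝟙 X)).mul_eq_left.1 h.symm)

end Env

theorem IsFn.unit {θ : ∀ X : T.C, T.R X} (h : IsFn T θ) {X Y : T.C} (φ : X ⟶ Y) :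
    IsUnit (θ Y) ↔ IsUnit (T.f φ (θ X)) := by
  obtain ⟨u, hu⟩ := h X Y φ
  rw [hu, Units.isUnit_units_mul]

theorem IsFn.up {θ : ∀ X : T.C, T.R X} (h : IsFn T θ) {X Y : T.C} (φ : X ⟶ Y)
    (hX : IsUnit (θ X)) : IsUnit (θ Y) := (h.unit φ).2 (hX.map _)

theorem IsFn.mul {a b : ∀ X : T.C, T.R X} (ha : IsFn T a) (hb : IsFn T b) :
    IsFn T fun X => a X * b X := fun X Y φ => by
  obtain ⟨u, hu⟩ := ha X Y φ
  obtain ⟨v, hv⟩ := hb X Y φ
  exact ⟨u * v, by rw [map_mul, hu, hv, Units.val_mul, mul_mul_mul_comm]⟩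

namespace Env

variable (e : Env T) {θ θ' : ∀ X : T.C, T.R X}

/-- The open part. -/
abbrev lo (θ : ∀ X : T.C, T.R X) (X : T.C) : T.C := e.L.ob X (θ X)

/-- The inclusion of the open part. -/
abbrev ar (θ : ∀ X : T.C, T.R X) (X : T.C) : X ⟶ e.lo θ X := e.L.ar X (θ X)

theorem lo_unit (h : IsFn T θ) (X : T.C) : IsUnit (θ (e.lo θ X)) :=
  (h.unit (e.ar θ X)).2 (e.L.away X (θ X)).unit

theorem lm_unit (h : IsFn T θ) {X Y : T.C} (φ : X ⟶ Y) : IsUnit (T.f (φ ≫ e.ar θ Y) (θ X)) :=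
  (h.unit _).1 (e.lo_unit h Y)

/-- The functoriality of the open part. -/
def lm (h : IsFn T θ) {X Y : T.C} (φ : X ⟶ Y) : e.lo θ X ⟶ e.lo θ Y :=
  e.lf (φ ≫ e.ar θ Y) (θ X) (e.lm_unit h φ)

theorem ar_lm (h : IsFn T θ) {X Y : T.C} (φ : X ⟶ Y) : e.ar θ X ≫ e.lm h φ = φ ≫ e.ar θ Y :=
  e.ar_lf _ _ _

/-- The open part as a functor. -/
def LT (h : IsFn T θ) : LF T T where
  ob := e.lo θ
  map := e.lm h
  map_id X := e.cancel (by rw [ar_lm, Category.id_comp, Category.comp_id])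
  map_comp φ ψ := e.cancel (by
    rw [ar_lm, ← Category.assoc, ar_lm, Category.assoc, Category.assoc, ar_lm])
  cen := e.cen
  i X := T.f (e.ar θ X)
  fe X := away_fe (e.L.away X (θ X))
  nat φ a := (e.f_lf _ _ _ a).trans (e.fc _ _ a)
  dl φ := by
    refine (e.dl_lf _ _ _).trans ?_
    rw [e.g.dl_comp, e.L.dl_ar, one_mul]
  unit := e.g.unit
  hs := rfl

theorem po (h : IsFn T θ) {X Y : T.C} (φ : X ⟶ Y) :
    PO (T.f φ).r (T.f (e.ar θ X)).r (T.f (e.ar θ Y)).r (T.f (e.lm h φ)).r := by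
  obtain ⟨u, hu⟩ := h X Y φ
  exact po_away (e.L.away X (θ X)) (hu ▸ away_unit (e.L.away Y (θ Y)) u) ((e.LT h).nat φ)

/-- The inclusion of a smaller open part. -/
def rs (X : T.C) (h : IsUnit (T.f (e.ar θ' X) (θ X))) : e.lo θ X ⟶ e.lo θ' X :=
  e.lf (e.ar θ' X) (θ X) h

theorem ar_rs (X : T.C) (h : IsUnit (T.f (e.ar θ' X) (θ X))) : e.ar θ X ≫ e.rs X h = e.ar θ' X :=
  e.ar_lf _ _ _

theorem dl_rs (X : T.C) (h : IsUnit (T.f (e.ar θ' X) (θ X))) : T.dl (e.rs X h) = 1 :=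
  (e.dl_lf _ _ _).trans (e.L.dl_ar _ _)

theorem f_rs (X : T.C) (h : IsUnit (T.f (e.ar θ' X) (θ X))) (x : T.R X) :
    T.f (e.rs X h) (T.f (e.ar θ X) x) = T.f (e.ar θ' X) x := e.f_lf _ _ _ x

theorem rs_nat (hθ : IsFn T θ) (hθ' : IsFn T θ') {X Y : T.C} (φ : X ⟶ Y)
    (h : IsUnit (T.f (e.ar θ' X) (θ X))) (h' : IsUnit (T.f (e.ar θ' Y) (θ Y))) :
    e.lm hθ φ ≫ e.rs Y h' = e.rs X h ≫ e.lm hθ' φ := e.cancel (by
  rw [← Category.assoc, ar_lm, Category.assoc, ar_rs, ← Category.assoc, ar_rs, ar_lm])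

theorem bij_ar (X : T.C) (h : IsUnit (θ X)) : Function.Bijective (T.f (e.ar θ X)) :=
  bij_of_away (away_id _) (e.L.away X (θ X)) _ (fun _ => rfl) h

theorem bij_rs (X : T.C) (h : IsUnit (T.f (e.ar θ' X) (θ X)))
    (h' : IsUnit (T.f (e.ar θ X) (θ' X))) : Function.Bijective (T.f (e.rs X h)) :=
  bij_of_away (e.L.away X (θ X)) (e.L.away X (θ' X)) _ (e.f_rs X h) h'

include e in
theorem bij_id (X : T.C) : Function.Bijective (T.f (𝟙 X)) := by
  rw [e.g.f_id]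
  exact Function.bijective_id

end Env

theorem fe_id (A : Type) [CommRing A] [Algebra ℂ A] :
    ((AlgHom.id ℂ A : A →ₐ[ℂ] A) : A →+* A).FormallyEtale := away_fe (away_id A)

/-! ### Two charts -/

variable {a b c : ∀ X : T.C, T.R X}

theorem isFn_th (ha : IsFn T a) (hb : IsFn T b) : ∀ i, IsFn T (th a b i)
  | .a => ha
  | .b => hb
  | .n => ha.mul hb

theorem th_dvd (i : Ix) (X : T.C) : th a b i X ∣ th a b .n X := by
  cases i
  · exact dvd_mul_right _ _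
  · exact dvd_mul_left _ _
  · exact dvd_rfl

theorem th_sup {i j : Ix} {X : T.C} (h : IsUnit (th a b i X)) (h' : IsUnit (th a b j X)) :
    IsUnit (th a b (Ix.sup i j) X) := by
  cases i <;> cases j <;> first | exact h | exact h' | exact h.mul h' | exact h'.mul h

theorem th_or {i : Ix} {X : T.C} (h : IsUnit (th a b i X)) : IsUnit (a X) ∨ IsUnit (b X) := by
  cases i
  · exact Or.inl h
  · exact Or.inr h
  · exact Or.inl (isUnit_of_mul_isUnit_left h)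

namespace Env

variable (e : Env T) (ha : IsFn T a) (hb : IsFn T b) (hc : IsFn T c)

/-- The forgetful functor. -/
def J (a b : ∀ X : T.C, T.R X) : LF T (GS T a b) where
  ob P := GO.X P
  map u := GM.φ u
  map_id _ := rfl
  map_comp _ _ := rfl
  cen _ := rfl
  i _ := AlgHom.id ℂ _
  fe _ := fe_id _
  nat _ _ := rfl
  dl _ := rfl
  unit u := e.g.unit (GM.φ u)
  hs := rfl

/-- The chart `i`. -/
def oL (i : Ix) (X : T.C) : GO a b := ⟨i, e.lo (th a b i) X, e.lo_unit (isFn_th ha hb i) X⟩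

/-- The intersection with the chart `i`. -/
def oM (i : Ix) (P : GO a b) : GO a b := ⟨Ix.sup P.i i, e.lo (th a b i) P.X,
  th_sup ((isFn_th ha hb _).up (e.ar _ _) P.h) (e.lo_unit (isFn_th ha hb i) _)⟩

/-- The chart `i`. -/
def Li (i : Ix) : LF (GS T a b) T where
  ob X := e.oL ha hb i X
  map {X Y} φ := GM.mk (P := e.oL ha hb i X) (Q := e.oL ha hb i Y) le_rfl
    (e.lm (isFn_th ha hb i) φ)
  map_id X := GM.ext ((e.LT (isFn_th ha hb i)).map_id X)
  map_comp φ ψ := GM.ext ((e.LT (isFn_th ha hb i)).map_comp φ ψ)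
  cen := e.cen
  i := (e.LT (isFn_th ha hb i)).i
  fe := (e.LT (isFn_th ha hb i)).fe
  nat := (e.LT (isFn_th ha hb i)).nat
  dl := (e.LT (isFn_th ha hb i)).dl
  unit := e.g.unit
  hs := rfl

/-- The intersection with the chart `i`. -/
def Mi (i : Ix) : LF (GS T a b) (GS T a b) where
  ob P := e.oM ha hb i P
  map {P Q} u := GM.mk (P := e.oM ha hb i P) (Q := e.oM ha hb i Q)
    (Ix.sup_mono (GM.le u) le_rfl) (e.lm (isFn_th ha hb i) (GM.φ u))
  map_id P := GM.ext ((e.LT (isFn_th ha hb i)).map_id (GO.X P))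
  map_comp u v := GM.ext ((e.LT (isFn_th ha hb i)).map_comp (GM.φ u) (GM.φ v))
  cen _ := rfl
  i P := (e.LT (isFn_th ha hb i)).i (GO.X P)
  fe P := (e.LT (isFn_th ha hb i)).fe (GO.X P)
  nat u := (e.LT (isFn_th ha hb i)).nat (GM.φ u)
  dl u := (e.LT (isFn_th ha hb i)).dl (GM.φ u)
  unit u := e.g.unit (GM.φ u)
  hs := rfl

theorem un (i : Ix) (X : T.C) : IsUnit (T.f (e.ar (th a b .n) X) (th a b i X)) :=
  isUnit_of_dvd_unit (map_dvd _ (th_dvd i X)) (e.L.away X (th a b .n X)).unit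

/-- The arrows to the intersection. -/
def rn (a b : ∀ X : T.C, T.R X) (i : Ix) (X : T.C) : e.lo (th a b i) X ⟶ e.lo (th a b .n) X :=
  e.rs X (e.un i X)

/-- The arrows to the intersection. -/
def aL (i : Ix) : LA (e.Li ha hb i) (e.Li ha hb .n) where
  τ X := GM.mk (P := e.oL ha hb i X) (Q := e.oL ha hb .n X) (Ix.le_n i) (e.rn a b i X)
  f_i X := e.f_rs X (e.un i X)
  nat φ := GM.ext (e.rs_nat (isFn_th ha hb i) (isFn_th ha hb .n) φ (e.un i _) (e.un i _))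
  dl X := e.dl_rs X (e.un i X)

/-- The arrows to the intersection. -/
def aM (i : Ix) : LA (e.Mi ha hb i) (e.Mi ha hb .n) where
  τ P := GM.mk (P := e.oM ha hb i P) (Q := e.oM ha hb .n P) (Ix.sup_mono le_rfl (Ix.le_n i))
    (e.rn a b i (GO.X P))
  f_i P := e.f_rs (GO.X P) (e.un i _)
  nat u := GM.ext (e.rs_nat (isFn_th ha hb i) (isFn_th ha hb .n) (GM.φ u) (e.un i _) (e.un i _))
  dl P := e.dl_rs (GO.X P) (e.un i _)

/-- The arrows to the charts. -/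
def uT (i : Ix) : LU ((e.J a b).comp (e.Li ha hb i)) where
  τ X := e.ar (th a b i) X
  f_i _ _ := rfl
  nat φ := (e.ar_lm (isFn_th ha hb i) φ).symm
  dl X := e.L.dl_ar _ _

/-- The arrows to the charts. -/
def uM (i : Ix) : LU (e.Mi ha hb i) where
  τ P := GM.mk (P := P) (Q := e.oM ha hb i P) (Ix.le_sup_l _ _) (e.ar (th a b i) (GO.X P))
  f_i _ _ := rfl
  nat u := GM.ext (e.ar_lm (isFn_th ha hb i) (GM.φ u)).symm
  dl P := e.L.dl_ar _ _

/-- The comparison arrows. -/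
def cM (i : Ix) : LA ((e.Li ha hb i).comp (e.J a b)) (e.Mi ha hb i) where
  τ P := GM.mk (P := e.oL ha hb i (GO.X P)) (Q := e.oM ha hb i P) (Ix.le_sup_r _ _)
    (𝟙 (e.lo (th a b i) (GO.X P)))
  f_i P x := e.fi _ _
  nat u := GM.ext ((Category.comp_id _).trans (Category.id_comp _).symm)
  dl P := e.dl_id _

/-! ### One chart -/

/-- The forgetful functor. -/
def Jo (c : ∀ X : T.C, T.R X) : LF T (Opn T c) where
  ob P := SO.X P
  map u := u
  map_id _ := rfl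
  map_comp _ _ := rfl
  cen P := e.cen (SO.X P)
  i _ := AlgHom.id ℂ _
  fe _ := fe_id _
  nat _ _ := rfl
  dl _ := rfl
  unit u := e.g.unit u
  hs := rfl

/-- The chart. -/
def Lo : LF (Opn T c) T where
  ob X := (⟨e.lo c X, e.lo_unit hc X⟩ : SO T fun X => IsUnit (c X))
  map φ := e.lm hc φ
  map_id := (e.LT hc).map_id
  map_comp := (e.LT hc).map_comp
  cen := e.cen
  i := (e.LT hc).i
  fe := (e.LT hc).fe
  nat := (e.LT hc).nat
  dl := (e.LT hc).dl
  unit := e.g.unit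
  hs := rfl

/-- The arrows to the chart. -/
def uo : LU ((e.Jo c).comp (e.Lo hc)) where
  τ X := e.ar c X
  f_i _ _ := rfl
  nat φ := (e.ar_lm hc φ).symm
  dl X := e.L.dl_ar _ _

/-- The arrows to the chart. -/
def uo' : LU ((e.Lo hc).comp (e.Jo c)) where
  τ P := e.ar c (SO.X P)
  f_i _ _ := rfl
  nat u := (e.ar_lm hc u).symm
  dl P := e.L.dl_ar _ _

end Env

end

end Vale.Agent.P286EO
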