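import Vale.Agent.P286EG.Cart
import Vale.Agent.P286EH.Push

/-!
# Cones, shifts and products of families, as DG functors
-/

set_option linter.all false

namespace Vale.Agent.P286EO

open CategoryTheory
open Vale.Agent.P286.St Vale.Agent.P286.H847 Vale.Agent.P286.H353 Vale.Agent.P286.H652
open Vale.Agent.P286EG

noncomputable section

universe u v

/-! ### Graded differential spaces -/

section GDs

variable {M M' N N' : GD}

/-- The action of the scalars. -/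
abbrev agC (M : GD) : AG ℂ :=
  ⟨M, algebraMap ℂ (Module.End ℂ M.V), fun a m _ h => (M.gr m).smul_mem a h,
    fun a x => M.d.map_smul a x⟩

theorem db_id (t : GD.Hom M N) : DB (RingHom.id ℂ) (agC M) (agC N) t ↔ GD.Qis t :=
  db_bij Function.bijective_id fun a x => t.f.map_smul a x

theorem qis_congr {u v : GD.Hom M N} (hu : GD.Qis u) (h : ∀ x, u.f x = v.f x) : GD.Qis v := by
  intro m
  obtain ⟨h1, h2⟩ := hu m
  simp only [h] at h1 h2
  exact ⟨h1, h2⟩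

theorem qis_cone {u : GD.Hom M M'} {v : GD.Hom N N'} {t : GD.Hom M N} {t' : GD.Hom M' N'}
    (e : ∀ x, v.f (t.f x) = t'.f (u.f x)) (h : GD.Qis t) (h' : GD.Qis t') :
    GD.Qis (coneMap t t' e) := by
  have h1 := DB.cone ((db_id t).2 h) ((db_id t').2 h') (u := u) (v := v)
    (fun a x => u.f.map_smul a x) (fun a x => v.f.map_smul a x) e
  exact (db_bij Function.bijective_id h1.1).1 h1

theorem qis_sh {t : GD.Hom M N} (h : GD.Qis t) (n : ℤ) (c : ℤˣ) : GD.Qis (shMap t n c) := by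
  have h1 := DB.sh ((db_id t).2 h) n c
  exact (db_bij Function.bijective_id h1.1).1 h1

theorem qis_pi {ι : Type} [Finite ι] {M N : ι → GD} {t : ∀ l, GD.Hom (M l) (N l)}
    (h : ∀ l, GD.Qis (t l)) : GD.Qis (piMap t) := by
  have h1 := DB.pi (M := fun l => agC (M l)) (N := fun l => agC (N l)) fun l => (db_id (t l)).2 (h l)
  exact (db_bij Function.bijective_id h1.1).1 h1

theorem qis_of_inv (u : GD.Hom M N) (v : GD.Hom N M) (h : ∀ x, v.f (u.f x) = x)
    (h' : ∀ x, u.f (v.f x) = x) : GD.Qis u :=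
  GD.Qis.of_htpy u v 0 (fun _ _ _ => zero_mem _) (fun _ x _ => by simp [h]) 0
    (fun _ _ _ => zero_mem _) (fun _ x _ => by simp [h'])

theorem qis_of_exact (u : GD.Hom M N) (h : M.Exact) (h' : N.Exact) : GD.Qis u := fun m =>
  ⟨fun x hx hd _ => h m x hx hd, fun y hy hd => by
    obtain ⟨z, hz, e⟩ := h' m y hy hd
    exact ⟨0, zero_mem _, map_zero _, z, hz, by rw [e, map_zero, sub_zero]⟩⟩

theorem exact_of_qis {u : GD.Hom M N} (h : GD.Qis u) (h' : N.Exact) : M.Exact :=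
  fun m x hx hd => (h m).1 x hx hd (h' m _ (u.deg m x hx) (by rw [← u.comm, hd, map_zero]))

theorem exact_of_zero (h : ∀ x : M.V, x = 0) : M.Exact := fun _ x _ _ =>
  ⟨0, zero_mem _, by rw [map_zero, h x]⟩

/-- The inclusion to the cone. -/
def cinl (v : GD.Hom N N') : GD.Hom N' (GD.Cone v) where
  f := LinearMap.inl ℂ N'.V N.V
  comm x := by
    rw [GD.cone_d]
    refine Prod.ext ?_ ?_ <;> simp
  deg _ _ h := ⟨h, zero_mem _⟩

variable {A B C : GD}

/-- The homotopy pull-back. -/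
abbrev HP (u : GD.Hom A C) (v : GD.Hom B C) : GD := gsh (GD.Cone ((cinl v).comp u)) (-1) (-1)

theorem hp_d (u : GD.Hom A C) (v : GD.Hom B C) (x : (C.V × B.V) × A.V) :
    (HP u v).d x = ((-(C.d x.1.1 + v.f x.1.2 + u.f x.2), B.d x.1.2), A.d x.2) := by
  change ((-1 : ℤˣ) : ℤ) • (GD.Cone ((cinl v).comp u)).d x = _
  rw [GD.cone_d, GD.cone_d, Units.val_neg, Units.val_one, neg_one_zsmul]
  refine Prod.ext (Prod.ext rfl ?_) (neg_neg _)
  change -(-(B.d x.1.2) + 0) = _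
  rw [add_zero, neg_neg]

theorem hp_gr (u : GD.Hom A C) (v : GD.Hom B C) (m : ℤ) (x : (C.V × B.V) × A.V) :
    x ∈ (HP u v).gr m ↔ x.1.1 ∈ C.gr (m - 1) ∧ x.1.2 ∈ B.gr m ∧ x.2 ∈ A.gr m := by
  change (x.1.1 ∈ C.gr (m + -1) ∧ x.1.2 ∈ B.gr (m + -1 + 1)) ∧ x.2 ∈ A.gr (m + -1 + 1) ↔ _
  rw [neg_add_cancel_right, ← sub_eq_add_neg, and_assoc]

/-- The map to the homotopy pull-back defined by a commutative square. -/
def hpL {u : GD.Hom A C} {v : GD.Hom B C} (p : GD.Hom M A) (q : GD.Hom M B)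
    (e : ∀ x, u.f (p.f x) = v.f (q.f x)) : GD.Hom M (HP u v) where
  f := ((0 : M.V →ₗ[ℂ] C.V).prod (-q.f)).prod p.f
  comm x := by
    rw [hp_d]
    refine Prod.ext (Prod.ext ?_ ?_) (p.comm x)
    · simp [e]
    · simp [q.comm]
  deg m x h := (hp_gr u v m _).2 ⟨zero_mem _, neg_mem (q.deg m x h), p.deg m x h⟩

theorem hpL_f {u : GD.Hom A C} {v : GD.Hom B C} (p : GD.Hom M A) (q : GD.Hom M B)
    (e : ∀ x, u.f (p.f x) = v.f (q.f x)) (x : M.V) :
    (hpL p q e).f x = (((0 : C.V), -q.f x), p.f x) := rfl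

/-- The first projection. -/
def hpA (u : GD.Hom A C) (v : GD.Hom B C) : GD.Hom (HP u v) A where
  f := LinearMap.snd ℂ (C.V × B.V) A.V
  comm x := by rw [hp_d]; rfl
  deg m x h := ((hp_gr u v m x).1 h).2.2

/-- The second projection. -/
def hpB (u : GD.Hom A C) (v : GD.Hom B C) : GD.Hom (HP u v) B where
  f := -((LinearMap.snd ℂ C.V B.V).comp (LinearMap.fst ℂ (C.V × B.V) A.V))
  comm x := by
    rw [hp_d]
    exact (map_neg B.d x.1.2).symm
  deg m x h := neg_mem ((hp_gr u v m x).1 h).2.1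

theorem hp_aux {u : GD.Hom A C} {v : GD.Hom B C} (hv : GD.Qis v) (m : ℤ) :
    (∀ c ∈ C.gr (m - 1), ∀ b ∈ B.gr m, ∀ a' ∈ A.gr (m - 1), B.d b = 0 →
      C.d c + v.f b + u.f (A.d a') = 0 → ∃ c' ∈ C.gr (m - 1 - 1), ∃ b' ∈ B.gr (m - 1),
        -(C.d c' + v.f b' + u.f a') = c ∧ B.d b' = b) ∧
    ∀ a ∈ A.gr m, A.d a = 0 → ∃ c ∈ C.gr (m - 1), ∃ b ∈ B.gr m, B.d b = 0 ∧
      C.d c + v.f b + u.f a = 0 := by
  refine ⟨fun c hc b hb a' ha' h1 h2 => ?_, fun a ha h => ?_⟩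
  · obtain ⟨b₁, hb₁, e₁⟩ := (hv m).1 b hb h1 ⟨-(c + u.f a'), neg_mem (add_mem hc (u.deg _ _ ha')), by
      rw [map_neg, map_add, ← u.comm, neg_eq_iff_add_eq_zero, ← h2]
      abel⟩
    obtain ⟨b₂, hb₂, e₂, c', hc', e₃⟩ := (hv (m - 1)).2 (-(c + u.f a' + v.f b₁))
      (neg_mem (add_mem (add_mem hc (u.deg _ _ ha')) (v.deg _ _ hb₁))) (by
        rw [map_neg, map_add, map_add, ← u.comm, ← v.comm, e₁, neg_eq_zero, ← h2]
        abel)
    refine ⟨c', hc', b₁ + b₂, add_mem hb₁ hb₂, ?_, by rw [map_add, e₁, e₂, add_zero]⟩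
    rw [e₃, map_add]
    abel
  · obtain ⟨b, hb, e₁, c, hc, e₂⟩ := (hv m).2 (-u.f a) (neg_mem (u.deg _ _ ha)) (by
      rw [map_neg, ← u.comm, h, map_zero, neg_zero])
    refine ⟨c, hc, b, hb, e₁, ?_⟩
    rw [e₂]
    abel

theorem qis_hpA (u : GD.Hom A C) {v : GD.Hom B C} (hv : GD.Qis v) : GD.Qis (hpA u v) := by
  intro m
  obtain ⟨h1, h2⟩ := hp_aux (u := u) hv m
  refine ⟨?_, fun a ha hd => ?_⟩
  · rintro x hx hd ⟨a', ha', e⟩
    rw [hp_gr] at hx
    rw [hp_d] at hd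
    have e' : A.d a' = x.2 := e
    obtain ⟨c', hc', b', hb', e₁, e₂⟩ := h1 x.1.1 hx.1 x.1.2 hx.2.1 a' ha'
      (congrArg (fun z => z.1.2) hd) (by
        rw [e']
        exact neg_eq_zero.1 (congrArg (fun z => z.1.1) hd))
    refine ⟨((c', b'), a'), (hp_gr u v _ _).2 ⟨hc', hb', ha'⟩, ?_⟩
    rw [hp_d]
    exact Prod.ext (Prod.ext e₁ e₂) e'
  · obtain ⟨c, hc, b, hb, e₁, e₂⟩ := h2 a ha hd
    refine ⟨((c, b), a), (hp_gr u v _ _).2 ⟨hc, hb, ha⟩, ?_, 0, zero_mem _, ?_⟩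
    · rw [hp_d]
      exact Prod.ext (Prod.ext (neg_eq_zero.2 e₂) e₁) hd
    · rw [map_zero]
      exact (sub_self a).symm

theorem qis_hpB {u : GD.Hom A C} (v : GD.Hom B C) (hu : GD.Qis u) : GD.Qis (hpB u v) := by
  intro m
  obtain ⟨h1, h2⟩ := hp_aux (u := v) hu m
  refine ⟨?_, fun a ha hd => ?_⟩
  · rintro x hx hd ⟨a', ha', e⟩
    rw [hp_gr] at hx
    rw [hp_d] at hd
    have e' : B.d (-a') = x.1.2 := by
      rw [map_neg, e]
      exact neg_neg _
    obtain ⟨c', hc', b', hb', e₁, e₂⟩ := h1 x.1.1 hx.1 x.2 hx.2.2 (-a') (neg_mem ha')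
      (congrArg (fun z => z.2) hd) (by
        rw [e', add_right_comm]
        exact neg_eq_zero.1 (congrArg (fun z => z.1.1) hd))
    refine ⟨((c', -a'), b'), (hp_gr u v _ _).2 ⟨hc', neg_mem ha', hb'⟩, ?_⟩
    rw [hp_d]
    refine Prod.ext (Prod.ext ?_ e') e₂
    rw [← e₁, add_right_comm]
  · obtain ⟨c, hc, b, hb, e₁, e₂⟩ := h2 (-a) (neg_mem ha) (by rw [map_neg, hd, neg_zero])
    refine ⟨((c, -a), b), (hp_gr u v _ _).2 ⟨hc, neg_mem ha, hb⟩, ?_, 0, zero_mem _, ?_⟩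
    · rw [hp_d]
      refine Prod.ext (Prod.ext (neg_eq_zero.2 ?_) ?_) e₁
      · rw [← e₂, add_right_comm]
      · change B.d (-a) = 0
        rw [map_neg, hd, neg_zero]
    · rw [map_zero]
      change 0 = a - - -a
      rw [neg_neg, sub_self]

theorem qis_hpL_l {u : GD.Hom A C} {v : GD.Hom B C} {p : GD.Hom M A} {q : GD.Hom M B}
    (e : ∀ x, u.f (p.f x) = v.f (q.f x)) (hp : GD.Qis p) (hv : GD.Qis v) : GD.Qis (hpL p q e) :=
  (qis_hpA u hv).of_comp_left (qis_congr hp fun _ => rfl)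

theorem qis_hpL_r {u : GD.Hom A C} {v : GD.Hom B C} {p : GD.Hom M A} {q : GD.Hom M B}
    (e : ∀ x, u.f (p.f x) = v.f (q.f x)) (hq : GD.Qis q) (hu : GD.Qis u) : GD.Qis (hpL p q e) :=
  (qis_hpB v hu).of_comp_left (qis_congr hq fun _ => (neg_neg _).symm)

theorem qis_proj {ι : Type} [DecidableEq ι] (M : ι → GD) (l : ι)
    (h : ∀ k, k ≠ l → (M k).Exact) (p : GD.Hom (gpi M) (M l)) (hp : ∀ x, p.f x = x l) :
    GD.Qis p := by
  intro m
  refine ⟨?_, fun y hy hd => ?_⟩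
  · rintro x hx hd ⟨y, hy, e⟩
    have : ∀ k, ∃ z ∈ (M k).gr (m - 1), (M k).d z = x k := fun k => by
      by_cases hk : k = l
      · subst hk
        exact ⟨y, hy, e.trans (hp x)⟩
      · exact h k hk m (x k) (hx k trivial) (congrFun hd k)
    choose z hz ez using this
    exact ⟨z, fun k _ => hz k, funext ez⟩
  · refine ⟨Pi.single l y, fun k _ => ?_, funext fun k => ?_, 0, zero_mem _, ?_⟩
    · by_cases hk : k = l
      · subst hk
        rwa [Pi.single_eq_same]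
      · rw [Pi.single_eq_of_ne hk]
        exact zero_mem _
    · change (M k).d ((Pi.single l y : ∀ k, (M k).V) k) = 0
      by_cases hk : k = l
      · subst hk
        rwa [Pi.single_eq_same]
      · rw [Pi.single_eq_of_ne hk, map_zero]
    · rw [map_zero, hp, Pi.single_eq_same, sub_self]

end GDs

end

end Vale.Agent.P286EO
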