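import Vale.Agent.P286EO.Kit

/-!
# Cones, shifts and products of families, as DG functors
-/

set_option linter.all false

namespace Vale.Agent.P286EO

open CategoryTheory
open Vale.Agent.P286.St Vale.Agent.P286.H847 Vale.Agent.P286.H353 Vale.Agent.P286.H652
open Vale.Agent.P286EG

noncomputable section

universe u v

variable {T : TSite} {F F' G G' : GTD T}

theorem li (u : GHom F F') (X : T.C) : Li (ag F X) (ag F' X) (u.f X) := u.fn X

/-- The cone. -/
def gcone (u : GHom F F') : GTD T where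
  F X := GD.Cone (u.f X)
  fn X a := (AG.cone (li u X)).fn a
  vf X v := (F'.vf X v).prodMap (F.vf X v)
  tr φ := coneMap (F.tr φ) (F'.tr φ) (u.tr φ)
  fn_gr X := (AG.cone (li u X)).gr
  vf_gr X v m x h := ⟨F'.vf_gr X v _ _ h.1, F.vf_gr X v _ _ h.2⟩
  fn_d X := (AG.cone (li u X)).d
  vf_d X v x := by
    rw [GD.cone_d, GD.cone_d, LinearMap.prodMap_apply, LinearMap.prodMap_apply, map_add, map_neg,
      F.vf_d, F'.vf_d, u.vf]
  dmod X :=
    { const := fun c m => Prod.ext ((F'.dmod X).const c m.1) ((F.dmod X).const c m.2)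
      fn_add := fun a b m => Prod.ext ((F'.dmod X).fn_add a b m.1) ((F.dmod X).fn_add a b m.2)
      fn_mul := fun a b m => Prod.ext ((F'.dmod X).fn_mul a b m.1) ((F.dmod X).fn_mul a b m.2)
      vf_add := fun a b m => Prod.ext ((F'.dmod X).vf_add a b m.1) ((F.dmod X).vf_add a b m.2)
      vf_smul := fun a b m => Prod.ext ((F'.dmod X).vf_smul a b m.1) ((F.dmod X).vf_smul a b m.2)
      vf_fn := fun a b m => Prod.ext ((F'.dmod X).vf_fn a b m.1) ((F.dmod X).vf_fn a b m.2)
      vf_lie := fun a b m => Prod.ext ((F'.dmod X).vf_lie a b m.1) ((F.dmod X).vf_lie a b m.2) }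
  trans X Y φ :=
    { fn := fun a m => Prod.ext ((F'.trans X Y φ).fn a m.1) ((F.trans X Y φ).fn a m.2)
      vf := fun w k c v h m => Prod.ext
        ((congrArg (fun z => F'.fn Y (T.dl φ) z - _) (Prod.fst_sum ..)).trans
          ((F'.trans X Y φ).vf w k c v h m.1).symm).symm
        ((congrArg (fun z => F.fn Y (T.dl φ) z - _) (Prod.snd_sum ..)).trans
          ((F.trans X Y φ).vf w k c v h m.2).symm).symm }
  id X x := Prod.ext (F'.id X x.1) (F.id X x.2)
  comp X Y Z φ ψ x := Prod.ext (F'.comp X Y Z φ ψ x.1) (F.comp X Y Z φ ψ x.2)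
  cen X φ h x := Prod.ext (F'.cen X φ h x.1) (F.cen X φ h x.2)

theorem gc_cone (u : GHom F F') (h : GC F) (h' : GC F') : GC (gcone u) :=
  (gc_iff _).2 fun X Y φ => DB.cone (h.db φ) (h'.db φ) (li u X) (li u Y) (u.tr φ)

/-- The shift by `-1`. -/
def gshf (F : GTD T) : GTD T where
  F X := gsh (F.F X) (-1) (-1)
  fn := F.fn
  vf := F.vf
  tr φ := shMap (F.tr φ) (-1) (-1)
  fn_gr X a m x h := F.fn_gr X a _ x h
  vf_gr X a m x h := F.vf_gr X a _ x h
  fn_d X := ((ag F X).sh (-1) (-1)).d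
  vf_d X v x := by
    change ((-1 : ℤˣ) : ℤ) • (F.F X).d _ = F.vf X v (((-1 : ℤˣ) : ℤ) • (F.F X).d x)
    rw [map_zsmul, F.vf_d]
  dmod := F.dmod
  trans := F.trans
  id := F.id
  comp := F.comp
  cen := F.cen

theorem gc_shf (h : GC F) : GC (gshf F) :=
  (gc_iff _).2 fun X Y φ => DB.sh (h.db φ) (-1) (-1)

/-- The product. -/
def gpr {ι : Type} (F : ι → GTD T) : GTD T where
  F X := gpi fun l => (F l).F X
  fn X a := (AG.pi fun l => ag (F l) X).fn a
  vf X v := LinearMap.pi fun l => ((F l).vf X v).comp (LinearMap.proj l)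
  tr φ := piMap fun l => (F l).tr φ
  fn_gr X := (AG.pi fun l => ag (F l) X).gr
  vf_gr X v m x h l hl := (F l).vf_gr X v _ _ (h l hl)
  fn_d X := (AG.pi fun l => ag (F l) X).d
  vf_d X v x := funext fun l => (F l).vf_d X v (x l)
  dmod X :=
    { const := fun c m => funext fun l => ((F l).dmod X).const c (m l)
      fn_add := fun a b m => funext fun l => ((F l).dmod X).fn_add a b (m l)
      fn_mul := fun a b m => funext fun l => ((F l).dmod X).fn_mul a b (m l)
      vf_add := fun a b m => funext fun l => ((F l).dmod X).vf_add a b (m l)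
      vf_smul := fun a b m => funext fun l => ((F l).dmod X).vf_smul a b (m l)
      vf_fn := fun a b m => funext fun l => ((F l).dmod X).vf_fn a b (m l)
      vf_lie := fun a b m => funext fun l => ((F l).dmod X).vf_lie a b (m l) }
  trans X Y φ :=
    { fn := fun a m => funext fun l => ((F l).trans X Y φ).fn a (m l)
      vf := fun w k c v h m => funext fun l =>
        ((congrArg (fun z => (F l).fn Y (T.dl φ) z - _) (map_sum (LinearMap.proj (R := ℂ)
          (φ := fun l => ((F l).F Y).V) l) _ _)).trans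
          (((F l).trans X Y φ).vf w k c v h (m l)).symm).symm }
  id X x := funext fun l => (F l).id X (x l)
  comp X Y Z φ ψ x := funext fun l => (F l).comp X Y Z φ ψ (x l)
  cen X φ h x := funext fun l => (F l).cen X φ h (x l)

theorem gc_pr {ι : Type} [Finite ι] {F : ι → GTD T} (h : ∀ l, GC (F l)) : GC (gpr F) :=
  (gc_iff _).2 fun X Y φ =>
    DB.pi (M := fun l => ag (F l) X) (N := fun l => ag (F l) Y) fun l => (h l).db φ

/-- The inclusion to the cone. -/
def ginl (u : GHom F F') : GHom F' (gcone u) where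
  f X := cinl (u.f X)
  fn X a x := Prod.ext rfl (map_zero (F.fn X a)).symm
  vf X a x := Prod.ext rfl (map_zero (F.vf X a)).symm
  tr φ x := Prod.ext rfl (map_zero (F.tr φ).f).symm

variable {C : DGC.{u, v}}

/-- The value on an object. -/
abbrev go (Φ : DGF C (gtc T)) (K : C.Obj) : GTD T := Φ.obj K

/-- The value on a cochain. -/
abbrev gm (Φ : DGF C (gtc T)) {K L : C.Obj} (n : ℤ) (z : C.Hom K L n) :
    GTD.Coch (go Φ K) (go Φ L) n := Φ.map n z

theorem gm_add (Φ : DGF C (gtc T)) {K L : C.Obj} (n : ℤ) (z w : C.Hom K L n) (X : T.C) (x) :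
    (gm Φ n (z + w)).f X x = (gm Φ n z).f X x + (gm Φ n w).f X x :=
  congrArg (fun c : GTD.Coch (go Φ K) (go Φ L) n => c.f X x) ((Φ.map n).map_add z w)

theorem gm_smul (Φ : DGF C (gtc T)) {K L : C.Obj} (n : ℤ) (c : ℂ) (z : C.Hom K L n) (X : T.C) (x) :
    (gm Φ n (c • z)).f X x = c • (gm Φ n z).f X x :=
  congrArg (fun c : GTD.Coch (go Φ K) (go Φ L) n => c.f X x) ((Φ.map n).map_smul c z)

theorem gm_one (Φ : DGF C (gtc T)) (K : C.Obj) (X : T.C) (x) : (gm Φ 0 (C.one K)).f X x = x :=
  congrArg (fun c : GTD.Coch (go Φ K) (go Φ K) 0 => c.f X x) (Φ.map_one K)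

theorem gm_comp (Φ : DGF C (gtc T)) {K L M : C.Obj} {m n p : ℤ} (h : m + n = p) (z : C.Hom K L m)
    (w : C.Hom L M n) (X : T.C) (x) :
    (gm Φ p (C.comp h z w)).f X x = (gm Φ n w).f X ((gm Φ m z).f X x) :=
  congrArg (fun c : GTD.Coch (go Φ K) (go Φ M) p => c.f X x) (Φ.map_comp h z w)

theorem gm_d (Φ : DGF C (gtc T)) {K L : C.Obj} {m n : ℤ} (h : m + 1 = n) (z : C.Hom K L m)
    (X : T.C) (x) : (gm Φ n (C.d m n z)).f X x = ((go Φ L).F X).d ((gm Φ m z).f X x) -
      (m.negOnePow : ℤ) • (gm Φ m z).f X (((go Φ K).F X).d x) :=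
  (congrArg (fun c : GTD.Coch (go Φ K) (go Φ L) n => c.f X x) (Φ.map_d m n z)).trans
    (gdl_f h _ X x)

theorem gm_d0 (Φ : DGF C (gtc T)) {K L : C.Obj} {m n : ℤ} (h : ¬ m + 1 = n) (z : C.Hom K L m)
    (X : T.C) (x) : (gm Φ n (C.d m n z)).f X x = 0 :=
  congrArg (fun c : GTD.Coch (go Φ K) (go Φ L) n => c.f X x) ((Φ.map_d m n z).trans (gdl_ne h _))

/-- A DG functor to families, given elementwise. -/
def mkD (obj : C.Obj → GTD T)
    (map : ∀ {K L : C.Obj} (n : ℤ), C.Hom K L n → GTD.Coch (obj K) (obj L) n)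
    (add : ∀ {K L : C.Obj} (n : ℤ) (z w : C.Hom K L n) X x,
      (map n (z + w)).f X x = (map n z).f X x + (map n w).f X x)
    (smul : ∀ {K L : C.Obj} (n : ℤ) (c : ℂ) (z : C.Hom K L n) X x,
      (map n (c • z)).f X x = c • (map n z).f X x)
    (one : ∀ K X x, (map 0 (C.one K)).f X x = x)
    (comp : ∀ {K L M : C.Obj} {m n p : ℤ} (h : m + n = p) (z : C.Hom K L m) (w : C.Hom L M n) X x,
      (map p (C.comp h z w)).f X x = (map n w).f X ((map m z).f X x))
    (d : ∀ {K L : C.Obj} {m n : ℤ} (h : m + 1 = n) (z : C.Hom K L m) X x,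
      (map n (C.d m n z)).f X x = ((obj L).F X).d ((map m z).f X x) -
        (m.negOnePow : ℤ) • (map m z).f X (((obj K).F X).d x))
    (d0 : ∀ {K L : C.Obj} {m n : ℤ} (_ : ¬ m + 1 = n) (z : C.Hom K L m) X x,
      (map n (C.d m n z)).f X x = 0) : DGF C (gtc T) where
  obj := obj
  map {K L} n := (⟨⟨map n, fun z w => GTD.Coch.ext' (add n z w)⟩,
    fun c z => GTD.Coch.ext' (smul n c z)⟩ : C.Hom K L n →ₗ[ℂ] GTD.Coch (obj K) (obj L) n)
  map_one K := GTD.Coch.ext' (one K)
  map_comp h z w := GTD.Coch.ext' (comp h z w)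
  map_d m n z := by
    by_cases h : m + 1 = n
    · exact GTD.Coch.ext' fun X x => (d h z X x).trans (gdl_f h (map m z) X x).symm
    · exact (GTD.Coch.ext' (d0 h z)).trans (gdl_ne h (map m z)).symm

/-- A closed natural transformation of degree `0` of DG functors. -/
structure DN (Φ Ψ : DGF C (gtc T)) where
  app : ∀ K, GHom (go Φ K) (go Ψ K)
  nat : ∀ {K L : C.Obj} (n : ℤ) (z : C.Hom K L n) (X : T.C) (x : ((go Φ K).F X).V),
    ((app L).f X).f ((gm Φ n z).f X x) = (gm Ψ n z).f X (((app K).f X).f x)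

variable {Φ Ψ Θ : DGF C (gtc T)}

/-- The composition. -/
def DN.comp (β : DN Ψ Θ) (α : DN Φ Ψ) : DN Φ Θ where
  app K := (β.app K).comp (α.app K)
  nat n z X x := (congrArg ((β.app _).f X).f (α.nat n z X x)).trans (β.nat n z X _)

/-- The sign. -/
abbrev sg (n : ℤ) : ℤ := (n.negOnePow : ℤ)

theorem sg_add (m n : ℤ) : sg (m + n) = sg m * sg n := by
  rw [sg, Int.negOnePow_add, Units.val_mul]

theorem sg_succ (m : ℤ) : sg (m + 1) = -sg m := by
  rw [sg, Int.negOnePow_succ, Units.val_neg]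

theorem sg_zero : sg 0 = 1 := rfl

/-- The cochain of the cones. -/
def coneC {u : GHom F F'} {v : GHom G G'} {n : ℤ} (z : GTD.Coch F G n) (z' : GTD.Coch F' G' n) :
    GTD.Coch (gcone u) (gcone v) n where
  f X := (z'.f X).prodMap (sg n • z.f X)
  deg X m x h := ⟨z'.deg X m _ h.1, zsmul_mem (by
    have := z.deg X _ _ h.2
    rwa [add_right_comm] at this) _⟩
  fn X a x := Prod.ext (z'.fn X a x.1)
    ((congrArg (sg n • ·) (z.fn X a x.2)).trans (map_zsmul (G.fn X a) _ _).symm)
  vf X a x := Prod.ext (z'.vf X a x.1)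
    ((congrArg (sg n • ·) (z.vf X a x.2)).trans (map_zsmul (G.vf X a) _ _).symm)
  tr φ x := Prod.ext (z'.tr φ x.1)
    ((congrArg (sg n • ·) (z.tr φ x.2)).trans (map_zsmul (G.tr φ).f _ _).symm)

theorem coneC_f {u : GHom F F'} {v : GHom G G'} {n : ℤ} (z : GTD.Coch F G n)
    (z' : GTD.Coch F' G' n) (X : T.C) (x : (F'.F X).V × (F.F X).V) :
    (coneC (u := u) (v := v) z z').f X x = (z'.f X x.1, sg n • z.f X x.2) := rfl

theorem gcone_d (u : GHom F F') (X : T.C) (x : (F'.F X).V × (F.F X).V) :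
    ((gcone u).F X).d x = ((F'.F X).d x.1 + (u.f X).f x.2, -((F.F X).d x.2)) := rfl

/-- The cone of a natural transformation. -/
def coneD (α : DN Φ Ψ) : DGF C (gtc T) :=
  mkD (fun K => gcone (α.app K)) (fun n z => coneC (gm Φ n z) (gm Ψ n z))
    (fun n z w X x => Prod.ext (gm_add Ψ n z w X x.1)
      ((congrArg (sg n • ·) (gm_add Φ n z w X x.2)).trans (smul_add _ _ _)))
    (fun n c z X x => Prod.ext (gm_smul Ψ n c z X x.1)
      ((congrArg (sg n • ·) (gm_smul Φ n c z X x.2)).trans (smul_comm _ _ _)))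
    (fun K X x => Prod.ext (gm_one Ψ K X x.1)
      ((congrArg (sg 0 • ·) (gm_one Φ K X x.2)).trans (one_smul _ _)))
    (fun {K L M m n p} h z w X x => Prod.ext (gm_comp Ψ h z w X x.1) (by
      change sg p • (gm Φ p _).f X x.2 = sg n • (gm Φ n w).f X (sg m • (gm Φ m z).f X x.2)
      rw [gm_comp, map_zsmul, smul_smul, ← h, sg_add, mul_comm]))
    (fun {K L m n} h z X x => Prod.ext (by
      change (gm Ψ n _).f X x.1 = ((go Ψ L).F X).d ((gm Ψ m z).f X x.1) +
        ((α.app L).f X).f (sg m • (gm Φ m z).f X x.2) -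
        sg m • (gm Ψ m z).f X (((go Ψ K).F X).d x.1 + ((α.app K).f X).f x.2)
      rw [gm_d Ψ h, map_zsmul, α.nat, map_add, smul_add]
      abel) (by
      change sg n • (gm Φ n _).f X x.2 = -(((go Φ L).F X).d (sg m • (gm Φ m z).f X x.2)) -
        sg m • sg m • (gm Φ m z).f X (-(((go Φ K).F X).d x.2))
      rw [gm_d Φ h, ← h, sg_succ, map_zsmul, map_neg, smul_sub, neg_smul, neg_smul, smul_neg,
        smul_neg]))
    (fun {K L m n} h z X x => Prod.ext (gm_d0 Ψ h z X x.1)
      ((congrArg (sg n • ·) (gm_d0 Φ h z X x.2)).trans (smul_zero _)))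

/-- The inclusion to the cone. -/
def inlN (α : DN Φ Ψ) : DN Ψ (coneD α) where
  app K := ginl (α.app K)
  nat n z X x := Prod.ext rfl
    ((congrArg (sg n • ·) (map_zero ((gm Φ n z).f X))).trans (smul_zero _)).symm

/-- The cochain of the shifts. -/
def shC {n : ℤ} (z : GTD.Coch F G n) : GTD.Coch (gshf F) (gshf G) n where
  f X := sg n • z.f X
  deg X m x h := zsmul_mem (by
    have := z.deg X _ _ h
    rwa [add_right_comm] at this) _
  fn X a x := (congrArg (sg n • ·) (z.fn X a x)).trans (map_zsmul (G.fn X a) _ _).symm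
  vf X a x := (congrArg (sg n • ·) (z.vf X a x)).trans (map_zsmul (G.vf X a) _ _).symm
  tr φ x := (congrArg (sg n • ·) (z.tr φ x)).trans (map_zsmul (G.tr φ).f _ _).symm

/-- The shift of a DG functor. -/
def shD (Φ : DGF C (gtc T)) : DGF C (gtc T) :=
  mkD (fun K => gshf (go Φ K)) (fun n z => shC (gm Φ n z))
    (fun n z w X x => (congrArg (sg n • ·) (gm_add Φ n z w X x)).trans (smul_add _ _ _))
    (fun n c z X x => (congrArg (sg n • ·) (gm_smul Φ n c z X x)).trans
      (smul_comm (sg n) c ((gm Φ n z).f X x)))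
    (fun K X x => (congrArg (sg 0 • ·) (gm_one Φ K X x)).trans (one_smul _ _))
    (fun {K L M m n p} h z w X (x : ((go Φ K).F X).V) => by
      change sg p • (gm Φ p _).f X x = sg n • (gm Φ n w).f X (sg m • (gm Φ m z).f X x)
      rw [gm_comp, map_zsmul, smul_smul, ← h, sg_add, mul_comm])
    (fun {K L m n} h z X (x : ((go Φ K).F X).V) => by
      change sg n • (gm Φ n _).f X x =
        ((-1 : ℤˣ) : ℤ) • ((go Φ L).F X).d (sg m • (gm Φ m z).f X x) -
        sg m • sg m • (gm Φ m z).f X (((-1 : ℤˣ) : ℤ) • ((go Φ K).F X).d x)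
      rw [Units.val_neg, Units.val_one, neg_one_zsmul, neg_one_zsmul, gm_d Φ h, ← h, sg_succ,
        map_zsmul, map_neg, smul_sub, neg_smul, neg_smul, smul_neg, smul_neg])
    (fun {K L m n} h z X x => (congrArg (sg n • ·) (gm_d0 Φ h z X x)).trans
      (smul_zero (A := ((go Φ L).F X).V) (sg n)))

/-- The cochain of the products. -/
def prC {ι : Type} {F G : ι → GTD T} {n : ℤ} (z : ∀ l, GTD.Coch (F l) (G l) n) :
    GTD.Coch (gpr F) (gpr G) n where
  f X := LinearMap.pi fun l => ((z l).f X).comp (LinearMap.proj l)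
  deg X m x h l hl := (z l).deg X m _ (h l hl)
  fn X a x := funext fun l => (z l).fn X a (x l)
  vf X a x := funext fun l => (z l).vf X a (x l)
  tr φ x := funext fun l => (z l).tr φ (x l)

/-- The product of DG functors. -/
def prD {ι : Type} (Φ : ι → DGF C (gtc T)) : DGF C (gtc T) :=
  mkD (fun K => gpr fun l => go (Φ l) K) (fun n z => prC fun l => gm (Φ l) n z)
    (fun n z w X x => funext fun l => gm_add (Φ l) n z w X (x l))
    (fun n c z X x => funext fun l => gm_smul (Φ l) n c z X (x l))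
    (fun K X x => funext fun l => gm_one (Φ l) K X (x l))
    (fun h z w X x => funext fun l => gm_comp (Φ l) h z w X (x l))
    (fun h z X x => funext fun l => gm_d (Φ l) h z X (x l))
    (fun h z X x => funext fun l => gm_d0 (Φ l) h z X (x l))

/-- The projection. -/
def prP {ι : Type} (Φ : ι → DGF C (gtc T)) (l : ι) : DN (prD Φ) (Φ l) where
  app K :=
    { f := fun X => ⟨LinearMap.proj l, fun _ => rfl, fun _ _ h => h l trivial⟩
      fn := fun _ _ _ => rfl
      vf := fun _ _ _ => rfl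
      tr := fun _ _ => rfl }
  nat _ _ _ _ := rfl

/-- The map to the product. -/
def prL {ι : Type} {Φ : ι → DGF C (gtc T)} (α : ∀ l, DN Ψ (Φ l)) : DN Ψ (prD Φ) where
  app K :=
    { f := fun X => ⟨LinearMap.pi fun l => (((α l).app K).f X).f,
        fun x => funext fun l => (((α l).app K).f X).comm x,
        fun m x h l _ => (((α l).app K).f X).deg m x h⟩
      fn := fun X a x => funext fun l => ((α l).app K).fn X a x
      vf := fun X a x => funext fun l => ((α l).app K).vf X a x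
      tr := fun φ x => funext fun l => ((α l).app K).tr φ x }
  nat n z X x := funext fun l => (α l).nat n z X x

/-! ### Homotopy pull-backs -/

variable {A B D A' B' D' : DGF C (gtc T)}

/-- The homotopy pull-back. -/
def hpD (α : DN A D) (β : DN B D) : DGF C (gtc T) := shD (coneD ((inlN β).comp α))

theorem hpD_F (α : DN A D) (β : DN B D) (K : C.Obj) (X : T.C) :
    (go (hpD α β) K).F X = HP ((α.app K).f X) ((β.app K).f X) := rfl

theorem gc_hp (α : DN A D) (β : DN B D) (K : C.Obj) (hA : GC (go A K)) (hB : GC (go B K))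
    (hD : GC (go D K)) : GC (go (hpD α β) K) :=
  gc_shf (gc_cone _ hA (gc_cone _ hB hD))

theorem sg_sq {V : Type} [AddCommGroup V] (n : ℤ) (x : V) : sg n • sg n • x = x := by
  rw [smul_smul, ← Units.val_mul, Int.units_mul_self, Units.val_one, one_smul]

theorem hp_map (α : DN A D) (β : DN B D) {K L : C.Obj} (n : ℤ) (z : C.Hom K L n) (X : T.C)
    (x : (((go D K).F X).V × ((go B K).F X).V) × ((go A K).F X).V) :
    (gm (hpD α β) n z).f X x =
      ((sg n • (gm D n z).f X x.1.1, (gm B n z).f X x.1.2), (gm A n z).f X x.2) :=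
  Prod.ext (Prod.ext rfl (sg_sq n _)) (sg_sq n _)

/-- The map to the homotopy pull-back. -/
def hpN {α : DN A D} {β : DN B D} (p : DN Φ A) (q : DN Φ B)
    (e : ∀ K X x, ((α.app K).f X).f (((p.app K).f X).f x) =
      ((β.app K).f X).f (((q.app K).f X).f x)) : DN Φ (hpD α β) where
  app K :=
    { f := fun X => hpL ((p.app K).f X) ((q.app K).f X) (e K X)
      fn := fun X a x => Prod.ext (Prod.ext (map_zero ((go D K).fn X a)).symm
        ((congrArg Neg.neg ((q.app K).fn X a x)).trans (map_neg ((go B K).fn X a) _).symm))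
        ((p.app K).fn X a x)
      vf := fun X a x => Prod.ext (Prod.ext (map_zero ((go D K).vf X a)).symm
        ((congrArg Neg.neg ((q.app K).vf X a x)).trans (map_neg ((go B K).vf X a) _).symm))
        ((p.app K).vf X a x)
      tr := fun φ x => Prod.ext (Prod.ext (map_zero ((go D K).tr φ).f).symm
        ((congrArg Neg.neg ((q.app K).tr φ x)).trans (map_neg ((go B K).tr φ).f _).symm))
        ((p.app K).tr φ x) }
  nat n z X x := by
    refine Eq.trans ?_ (hp_map α β n z X _).symm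
    exact Prod.ext (Prod.ext ((congrArg (sg n • ·) (map_zero ((gm D n z).f X))).trans
      (smul_zero _)).symm
      ((congrArg Neg.neg (q.nat n z X x)).trans (map_neg ((gm B n z).f X) _).symm)) (p.nat n z X x)

/-- The map of homotopy pull-backs. -/
def hpM {α : DN A D} {β : DN B D} {α' : DN A' D'} {β' : DN B' D'} (a : DN A A') (b : DN B B')
    (d : DN D D')
    (ea : ∀ K X x, ((α'.app K).f X).f (((a.app K).f X).f x) =
      ((d.app K).f X).f (((α.app K).f X).f x))
    (eb : ∀ K X x, ((β'.app K).f X).f (((b.app K).f X).f x) =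
      ((d.app K).f X).f (((β.app K).f X).f x)) : DN (hpD α β) (hpD α' β') where
  app K :=
    { f := fun X => shMap (coneMap ((a.app K).f X)
        (coneMap ((b.app K).f X) ((d.app K).f X) (eb K X))
        (fun x => Prod.ext (ea K X x) (map_zero ((b.app K).f X).f).symm)) (-1) (-1)
      fn := fun X c x => Prod.ext (Prod.ext ((d.app K).fn X c x.1.1) ((b.app K).fn X c x.1.2))
        ((a.app K).fn X c x.2)
      vf := fun X c x => Prod.ext (Prod.ext ((d.app K).vf X c x.1.1) ((b.app K).vf X c x.1.2))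
        ((a.app K).vf X c x.2)
      tr := fun φ x => Prod.ext (Prod.ext ((d.app K).tr φ x.1.1) ((b.app K).tr φ x.1.2))
        ((a.app K).tr φ x.2) }
  nat {K L} n z X x := by
    refine Eq.trans ?_ (hp_map α' β' n z X _).symm
    rw [hp_map α β n z X x]
    exact Prod.ext (Prod.ext ((map_zsmul ((d.app L).f X).f _ _).trans
      (congrArg (sg n • ·) (d.nat n z X x.1.1))) (b.nat n z X x.1.2)) (a.nat n z X x.2)

theorem qis_hpM {α : DN A D} {β : DN B D} {α' : DN A' D'} {β' : DN B' D'} {a : DN A A'}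
    {b : DN B B'} {d : DN D D'} (ea) (eb) (K : C.Obj) (X : T.C) (ha : GD.Qis ((a.app K).f X))
    (hb : GD.Qis ((b.app K).f X)) (hd : GD.Qis ((d.app K).f X)) :
    GD.Qis (((hpM (α := α) (β := β) (α' := α') (β' := β') a b d ea eb).app K).f X) :=
  qis_sh (qis_cone _ ha (qis_cone _ hb hd)) _ _

end

end Vale.Agent.P286EO
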