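import Vale.Agent.P286EO.Kit2
import Vale.Agent.P286EO.Defs
import Vale.Agent.P286EH.Gc

/-!
# Strict etale functors of test categories, principal open parts
-/

set_option linter.all false

namespace Vale.Agent.P286EO

open CategoryTheory
open Vale.Agent.P286.St Vale.Agent.P286.H847 Vale.Agent.P286.H353 Vale.Agent.P286.H652
open Vale.Agent.P286EG Vale.Agent.P286EH
open Vale.Agent.P286ET (IsAway Ix)
open Vale.Agent.P286ER (Good)

noncomputable section

universe u v u₁ v₁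

section Away

variable {A B B' A' : Type} [CommRing A] [CommRing B] [CommRing B'] [CommRing A'] [Algebra ℂ A]
  [Algebra ℂ B] [Algebra ℂ B'] [Algebra ℂ A']

theorem away_loc {φ : A →ₐ[ℂ] B} {s : A} (h : IsAway φ s) :
    @IsLocalization.Away A _ s B _ (φ : A →+* B).toAlgebra := by
  let _ := (φ : A →+* B).toAlgebra
  refine IsLocalization.Away.mk s h.unit (fun y => ?_) fun x x' hx => ?_
  · obtain ⟨m, x, hx⟩ := h.surj y
    exact ⟨m, x, (mul_comm _ _).trans hx⟩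
  · obtain ⟨m, hm⟩ := h.ker (x - x') (by rw [map_sub]; exact sub_eq_zero.2 hx)
    exact ⟨m, by rwa [mul_sub, sub_eq_zero] at hm⟩

theorem away_fe {φ : A →ₐ[ℂ] B} {s : A} (h : IsAway φ s) : (φ : A →+* B).FormallyEtale := by
  let _ := (φ : A →+* B).toAlgebra
  have := away_loc h
  exact Algebra.FormallyEtale.of_isLocalization (Submonoid.powers s)

theorem away_unit {φ : A →ₐ[ℂ] B} {s : A} (h : IsAway φ s) (u : Aˣ) : IsAway φ (u * s) := by
  refine ⟨by rw [map_mul]; exact (u.isUnit.map φ).mul h.unit, fun y => ?_, fun x hx => ?_⟩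
  · obtain ⟨n, x, e⟩ := h.surj y
    exact ⟨n, u ^ n * x, by rw [map_mul, mul_pow, mul_assoc, e, map_mul, map_pow]⟩
  · obtain ⟨n, e⟩ := h.ker x hx
    exact ⟨n, by rw [mul_pow, mul_assoc, e, mul_zero]⟩

theorem away_id (A : Type) [CommRing A] [Algebra ℂ A] : IsAway (AlgHom.id ℂ A) 1 :=
  ⟨isUnit_one, fun y => ⟨0, y, by rw [pow_zero, one_mul]; rfl⟩,
    fun x hx => ⟨0, by rw [pow_zero, one_mul]; exact hx⟩⟩

theorem bij_of_away {i : A →ₐ[ℂ] B} {i' : A →ₐ[ℂ] B'} {s s' : A} (h : IsAway i s)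
    (h' : IsAway i' s') (r : B →ₐ[ℂ] B') (e : ∀ x, r (i x) = i' x) (hu : IsUnit (i s')) :
    Function.Bijective r := by
  refine ⟨(injective_iff_map_eq_zero r).2 fun y hy => ?_, fun y => ?_⟩
  · obtain ⟨n, x, e₁⟩ := h.surj y
    obtain ⟨m, e₂⟩ := h'.ker x (by rw [← e, ← e₁, map_mul, hy, mul_zero])
    have h1 : i x = 0 := (hu.pow m).mul_right_eq_zero.1 (by rw [← map_pow, ← map_mul, e₂, map_zero])
    exact (h.unit.pow n).mul_right_eq_zero.1 (e₁.trans h1)
  · obtain ⟨n, x, e₁⟩ := h'.surj y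
    obtain ⟨w, hw⟩ := (hu.pow n).exists_left_inv
    refine ⟨w * i x, ?_⟩
    rw [map_mul, e, ← e₁, ← e s', ← map_pow, ← mul_assoc, ← map_mul, hw, map_one, one_mul]

theorem po_away {f : A →ₐ[ℂ] B} {i : A →ₐ[ℂ] A'} {i' : B →ₐ[ℂ] B'} {f' : A' →ₐ[ℂ] B'} {s : A}
    (h : IsAway i s) (h' : IsAway i' (f s)) (e : ∀ x, f' (i x) = i' (f x)) :
    PO (f : A →+* B) (i : A →+* A') (i' : B →+* B') (f' : A' →+* B') := by
  let _ := (i : A →+* A').toAlgebra
  let _ := (i' : B →+* B').toAlgebra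
  have := away_loc h
  have : IsLocalization.Away ((f : A →+* B) s) B' := away_loc h'
  exact PO.away s e

end Away

variable {S T U : TSite}

/-- A functor from the test objects of `T` to the test objects of `S`, which is etale and
compatible with the line bundles. -/
structure LF (S T : TSite) where
  ob : T.C → S.C
  map : ∀ {X Y : T.C}, (X ⟶ Y) → (ob X ⟶ ob Y)
  map_id : ∀ X, map (𝟙 X) = 𝟙 (ob X)
  map_comp : ∀ {X Y Z : T.C} (φ : X ⟶ Y) (ψ : Y ⟶ Z), map (φ ≫ ψ) = map φ ≫ map ψ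
  cen : ∀ X, T.cen X = ∅
  i : ∀ X, T.R X →ₐ[ℂ] S.R (ob X)
  fe : ∀ X, (i X : T.R X →+* S.R (ob X)).FormallyEtale
  nat : ∀ {X Y : T.C} (φ : X ⟶ Y) (a : T.R X), S.f (map φ) (i X a) = i Y (T.f φ a)
  dl : ∀ {X Y : T.C} (φ : X ⟶ Y), S.dl (map φ) = i Y (T.dl φ)
  unit : ∀ {X Y : T.C} (φ : X ⟶ Y), IsUnit (T.dl φ)
  hs : S.s = T.s

/-- The etale functor. -/
def LF.et (E : LF S T) : EtF S T where
  ob := E.ob
  map := E.map
  map_id X := Sim.of_eq (E.map_id X)
  map_comp φ ψ := Sim.of_eq (E.map_comp φ ψ)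
  cen X φ h := by
    rw [E.cen X] at h
    exact h.elim
  i := E.i
  unr X := unr_of_fe (E.fe X)
  lf X := etLift (E.fe X)
  lf_i X := etLift_i (E.fe X)
  nat := E.nat
  unit φ := by
    rw [E.dl]
    exact (E.unit φ).map _
  b _ _ := 0
  b_add _ _ _ := (add_zero _).symm
  b_smul _ _ _ := (mul_zero _).symm
  b_lie _ _ _ := by rw [map_zero, map_zero, sub_zero]
  b_tr φ w k c v h := by
    rw [E.dl, etLift_i, E.hs, sub_self]
    simp

/-- The push-forward. -/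
abbrev LF.D (E : LF S T) : DGF (gtc S) (gtc T) := E.et.pushD

theorem LF.vf (E : LF S T) (F : GTD S) (X : T.C) (v : (T.A X).Der) (x : (F.F (E.ob X)).V) :
    (E.et.push F).vf X v x = F.vf (E.ob X) (E.et.lf X v) x :=
  (congrArg (F.vf (E.ob X) (E.et.lf X v) x + ·) (fn_zero F (E.ob X) x)).trans (add_zero _)

/-- The composition. -/
def LF.comp (E : LF S T) (E' : LF T U) : LF S U where
  ob X := E.ob (E'.ob X)
  map φ := E.map (E'.map φ)
  map_id X := by rw [E'.map_id, E.map_id]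
  map_comp φ ψ := by rw [E'.map_comp, E.map_comp]
  cen := E'.cen
  i X := (E.i (E'.ob X)).comp (E'.i X)
  fe X := (E'.fe X).comp (E.fe (E'.ob X))
  nat φ a := (E.nat _ _).trans (congrArg (E.i _) (E'.nat φ a))
  dl φ := (E.dl _).trans (congrArg (E.i _) (E'.dl φ))
  unit := E'.unit
  hs := E.hs.trans E'.hs

theorem LF.vf2 (E : LF S T) (E' : LF T U) (F : GTD S) (X : U.C) (v : (U.A X).Der)
    (x : (F.F (E.ob (E'.ob X))).V) :
    (E'.et.push (E.et.push F)).vf X v x = ((E.comp E').et.push F).vf X v x := by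
  have h : E.et.lf (E'.ob X) (E'.et.lf X v) = (E.comp E').et.lf X v :=
    ((E.comp E').et.unr X).ext fun a => ((E.et.lf_i _ _ _).trans
      (congrArg (E.i _) (E'.et.lf_i X v a))).trans ((E.comp E').et.lf_i X v a).symm
  exact ((E'.vf (E.et.push F) X v x).trans ((E.vf F _ _ x).trans
    (congrArg (fun w => F.vf (E.ob (E'.ob X)) w x) h))).trans ((E.comp E').vf F X v x).symm

/-- The comparison. -/
def cmpN (E : LF S T) (E' : LF T U) : DN (E.D.comp E'.D) (E.comp E').D where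
  app F := ⟨fun _ => GD.Hom.id _, fun _ _ _ => rfl, E.vf2 E' F, fun _ _ => rfl⟩
  nat _ _ _ _ := rfl

/-- The comparison. -/
def cmpN' (E : LF S T) (E' : LF T U) : DN (E.comp E').D (E.D.comp E'.D) where
  app F := ⟨fun _ => GD.Hom.id _, fun _ _ _ => rfl, fun X v x => (E.vf2 E' F X v x).symm,
    fun _ _ => rfl⟩
  nat _ _ _ _ := rfl

/-- Natural arrows. -/
structure LA (E E' : LF S T) where
  τ : ∀ X, E.ob X ⟶ E'.ob X
  f_i : ∀ X a, S.f (τ X) (E.i X a) = E'.i X a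
  nat : ∀ {X Y : T.C} (φ : X ⟶ Y), E.map φ ≫ τ Y = τ X ≫ E'.map φ
  dl : ∀ X, S.dl (τ X) = 1

/-- The natural arrows. -/
def LA.ar {E E' : LF S T} (α : LA E E') : Ar E.et E'.et where
  τ := α.τ
  f_i := α.f_i
  nat φ := Sim.of_eq (α.nat φ)
  unit X := (α.dl X).symm ▸ isUnit_one
  b X v := by
    change S.dl (α.τ X) * (0 - S.f (α.τ X) 0) = S.s • etLift (E'.fe X) v (S.dl (α.τ X))
    rw [α.dl]
    simp

/-- The natural transformation. -/
def LA.N {E E' : LF S T} (α : LA E E') : DN E.D E'.D where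
  app F := α.ar.hom F
  nat _ z X x := (GTD.Coch.tr z (α.τ X) x).symm

/-- Natural arrows from the identity. -/
structure LU (E : LF T T) where
  τ : ∀ X, X ⟶ E.ob X
  f_i : ∀ X a, T.f (τ X) a = E.i X a
  nat : ∀ {X Y : T.C} (φ : X ⟶ Y), φ ≫ τ Y = τ X ≫ E.map φ
  dl : ∀ X, T.dl (τ X) = 1

/-- The morphism. -/
def LU.hom {E : LF T T} (α : LU E) (F : GTD T) : GHom F (E.et.push F) where
  f X := F.tr (α.τ X)
  fn X a x := (tr_fn F (α.τ X) _ x).trans (by rw [α.f_i]; rfl)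
  vf X v x := by
    refine Eq.trans ?_ (E.vf F X v _).symm
    have h := vf_gauge F (α.τ X) (by rw [α.dl]; exact isUnit_one) (etLift (E.fe X) v) v
      (fun a => by rw [α.f_i, α.f_i]; exact etLift_i (E.fe X) v a) 0 (by rw [α.dl]; simp) x
    rw [fn_zero, add_zero] at h
    exact h
  tr φ x := (Sim.of_eq (α.nat φ)).sq F x

/-- The natural transformation. -/
def LU.N {E : LF T T} (α : LU E) : DN (DGF.id (gtc T)) E.D where
  app F := α.hom F
  nat _ z X x := (GTD.Coch.tr z (α.τ X) x).symm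

section Wh

variable {C : DGC.{u, v}} {B : DGC.{u₁, v₁}} {Φ Ψ Θ : DGF C (gtc T)}

/-- Whiskering. -/
def DN.left (α : DN Φ Ψ) (H : DGF B C) : DN (H.comp Φ) (H.comp Ψ) :=
  ⟨fun K => α.app (H.obj K), fun n z X x => α.nat n (H.map n z) X x⟩

/-- The push-forward of a morphism. -/
def pushH (E : EtF T U) {F F' : GTD T} (u : GHom F F') : GHom (E.push F) (E.push F') where
  f X := u.f (E.ob X)
  fn X a x := u.fn _ _ x
  vf X v (x : (F.F (E.ob X)).V) := by
    change (u.f _).f (E.pvf F X v x) = E.pvf F' X v ((u.f _).f x)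
    rw [EtF.pvf_apply, EtF.pvf_apply, map_add, u.vf, u.fn]
  tr φ x := u.tr (E.map φ) x

/-- Whiskering. -/
def DN.right (α : DN Φ Ψ) (E : EtF T U) : DN (Φ.comp E.pushD) (Ψ.comp E.pushD) :=
  ⟨fun K => pushH E (α.app K), fun n z X x => α.nat n z (E.ob X) x⟩

/-- The push-forward of a homotopy pull-back. -/
def hpR (α : DN Φ Θ) (β : DN Ψ Θ) (E : EtF T U) :
    DN ((hpD α β).comp E.pushD) (hpD (α.right E) (β.right E)) where
  app K := ⟨fun _ => GD.Hom.id _, fun _ _ _ => rfl, fun _ _ _ => rfl, fun _ _ => rfl⟩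
  nat _ _ _ _ := rfl

theorem comp_hpD (α : DN Φ Θ) (β : DN Ψ Θ) (H : DGF B C) :
    H.comp (hpD α β) = hpD (α.left H) (β.left H) := rfl

theorem DN.natW (α : DN Φ Ψ) (hΦ : ∀ K, GP T (Φ.obj K)) (hΨ : ∀ K, GP T (Ψ.obj K))
    (h : ∀ K X, GD.Qis ((α.app K).f X)) : NatW (gcq T) (glift Φ hΦ).z0 (glift Ψ hΨ).z0 :=
  natW_zlift (F := Φ.z0) (G := Ψ.z0) (fun K => hΦ (ob K)) (fun K => hΨ (ob K))
    (GNat.natW ⟨α.app, α.nat 0⟩ h)

theorem DN.gc (α : DN Φ Ψ) (K : C.Obj) (hΦ : GP T (Φ.obj K))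
    (h : ∀ X, GD.Qis ((α.app K).f X)) : GP T (Ψ.obj K) :=
  GC.fwd hΦ (α.app K).f (α.app K).fn (α.app K).tr h

theorem hp_pres {W : MorphismProperty (Z0 C)} (α : DN Φ Θ) (β : DN Ψ Θ)
    (h1 : Pres W (gqis T) Φ.z0) (h2 : Pres W (gqis T) Ψ.z0) (h3 : Pres W (gqis T) Θ.z0) :
    Pres W (gqis T) (hpD α β).z0 := by
  intro K L a ha X
  refine qis_congr (qis_sh (qis_cone (u := (cinl _).comp ((α.app (ob K)).f X))
    (v := (cinl _).comp ((α.app (ob L)).f X)) (fun x => ?_) (h1 a ha X)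
    (qis_cone (u := (β.app (ob K)).f X) (v := (β.app (ob L)).f X)
      (fun x => β.nat 0 (zf a) X x) (h2 a ha X) (h3 a ha X))) (-1) (-1)) fun x => ?_
  · exact Prod.ext (α.nat 0 (zf a) X x) (map_zero (gh (Ψ.z0.map a) X).f).symm
  · refine Eq.trans ?_ (hp_map α β 0 (zf a) X x).symm
    exact Prod.ext (Prod.ext (one_smul ℤ _).symm rfl) rfl

theorem pr_pres {W : MorphismProperty (Z0 C)} {ι : Type} [Finite ι] (Φ : ι → DGF C (gtc T))
    (h : ∀ l, Pres W (gqis T) (Φ l).z0) : Pres W (gqis T) (prD Φ).z0 := fun _ _ a ha X =>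
  qis_congr (qis_pi fun l => h l a ha X) fun _ => rfl

end Wh

end

end Vale.Agent.P286EO
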